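import Crest.Agent.X262.Emb71.Fn
import Crest.Agent.X262.Vb.Res
import Crest.Agent.X262.Tree87.Ses
import Crest.Agent.X262.Vb37.Mob
import Crest.Agent.X262.Tr89.Fib
import Crest.Agent.X262.Emb11.Def2
import Crest.Agent.X262.Emb40.Val_Mg
import Crest.Agent.X262.Vb.Bas1
import Crest.Agent.X262.Bub96.Tree
import Crest.Agent.X262.Bub96.Lat
import Crest.Agent.X262.Emb11.Defs

-- ▼ part X262/Emb11/Bas
section

/-!
# Row 262, road B, EMB (helper11), part 1: forgetting a factor, norming points, the class `R0`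

* `prC` commutes with `gau`, `map`, `red`, `res`; `prD_cfg`, `nrmUp_prD`, `mcls_prF`;
* `nr_of_inj` : norming points;
* `ont_of` : a map given by a homogeneous matrix is onto if the rank does not drop;
* `T0`, `R0` : the relative tangent class of the new factor.
-/

set_option autoImplicit false
set_option linter.unusedSectionVars false

noncomputable section

namespace Crest.Agent.X262.Emb

open Crest.Agent.X277 Crest.Agent.X277.BD Crest.Agent.X277.Pst Crest.Agent.X277.BD.Cyc Polynomial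
open Crest.Agent.X262.Hb Crest.Agent.X262.Vb
open Crest.Agent.X262.Bub96 (hv)
open Crest.Agent.X262.Bub96.Tr (dot)
open Crest.Agent.X262.Tree87 (TL HZ mpL mpL_apply pM)
open Crest.Agent.X262.Node22 (scl chr chr_ne mem_Vt)

section Gen

variable {J : Type} [Fintype J] [DecidableEq J] {io : J → Type} [∀ j, Fintype (io j)]
  [∀ j, DecidableEq (io j)] {I I₀ K E : Type} [Fintype I] [Fintype I₀] [Field K] [Algebra ℂ K]
  [Field E] [Algebra ℂ E] {z z' : Cfg io I K} {g : I₀ → I} {N : ℕ} {κ : J → ℕ}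

theorem geqUp_iff : GeqUp N z z' ↔ Cfg.GeqN N z z' :=
  exists_congr fun _ => and_congr_right fun _ => and_congr_left fun _ => funext_iff.symm

theorem injOn_scl {c : I → K} (hc : ∀ q, c q ≠ 0) {U : Submodule K (I → K)} (h : InjOn g U) :
    InjOn g (sclS c U) := by
  rintro _ ⟨u, hu, rfl⟩ h0
  rw [h u hu fun q => (mul_eq_zero.1 (h0 q)).resolve_left (hc _), map_zero]

theorem injOn_geq (h : Cfg.Geq z z') (hi : InjOn g (z.V κ)) : InjOn g (z'.V κ) := by
  obtain ⟨c, hc, rfl⟩ := h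
  exact injOn_scl (fun q => chr_ne (hc q) κ) hi

theorem finrank_geqN (h : Cfg.GeqN N z z') (hκ : ∀ j, κ j ≤ N) :
    Module.finrank K (z'.V κ) = Module.finrank K (z.V κ) := by
  obtain ⟨c, hc, -, h⟩ := h
  rw [h κ hκ]
  exact finrank_sclS (fun q => chr_ne (hc q) κ) _

theorem finrank_res (h : InjOn g (z.V κ)) :
    Module.finrank K ((z.res g).V κ) = Module.finrank K (z.V κ) :=
  Bub96.finrank_map_of_inj _ _ fun u hu h0 => h u hu (congrFun h0)


theorem v_chr_nrm (V : RZ ℂ K) (z : Cfg io I K) (q : I) (κ : J → ℕ) :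
    V.v (chr (z.nrm V q) κ) = ((lw κ (z.y q)).val V)⁻¹ := by
  rw [chr, map_prod, val_lw, ← Finset.prod_inv_distrib]
  exact Finset.prod_congr rfl fun j _ => by rw [map_pow, Cfg.nrm, map_inv₀, v_gen, inv_pow]

theorem nr_of_inj (hz : z.NZ) (h : ∀ U : RZ ℂ K, InjOn g ((z.red (plV U)).V κ)) : z.Nr g κ :=
  Cfg.nr_iff.2 fun U => (Cfg.nrAt_of_inj (Cfg.pr_nrm hz U) (h U)).geq (hz.gau (Cfg.nrm_ne U z))
    (Cfg.geq_gau z (Cfg.nrm_ne U z)).symm

/-! ### maps given by homogeneous matrices -/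

variable {P Q : Type} [Fintype P] [Fintype Q] {kk : P → J → ℕ} {k2 : Q → J → ℕ}
  {ψ : Q → P → MvPolynomial (Vr io) ℂ}

theorem mpL_gau (hψ : HZ k2 kk ψ) {c : I → J → K} (hc : ∀ q j, c q j ≠ 0) (z : Cfg io I K)
    (σ : P × I → K) : mpL ψ (z.gau c) (fun x => chr (c x.2) (kk x.1) * σ x) =
      fun x => chr (c x.2) (k2 x.1) * mpL ψ z σ x := by
  funext x
  rw [mpL_apply, mpL_apply, Finset.mul_sum]
  refine Finset.sum_congr rfl fun b _ => ?_
  rw [← mul_assoc, ← mul_assoc]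
  exact congrArg (· * σ (b, x.2)) (hψ.pM_scl (hc x.2) (z.y x.2) x.1 b)

theorem mpL_red0 {p : LP K E} (hz : z.Pr p.V) {σ : P × I → K} (hσ : ∀ x, σ x ∈ p.V.1)
    (x : Q × I) : mpL ψ z σ x ∈ p.V.1 ∧
      p.r (mpL ψ z σ x) = mpL ψ (z.red0 p.toPl) (fun x => p.r (σ x)) x := by
  have h1 : ∀ b, pv (z.y x.2) (ψ x.1 b) ∈ p.V.1 := fun b => pv_mem (fun j => (hz x.2 j).1) _
  rw [mpL_apply, mpL_apply, Tree87.r_sum _ fun b _ => mul_mem (h1 b) (hσ _)]
  refine ⟨sum_mem fun b _ => mul_mem (h1 b) (hσ _), Finset.sum_congr rfl fun b _ => ?_⟩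
  rw [Pl.r_mul (h1 b) (hσ _), r_pv p.lnr fun j => (hz x.2 j).1]
  rfl

theorem nm_le_iff {V : RZ ℂ K} {σ : P × I → K} :
    nm (fun x : P × I => lw (kk x.1) (z.y x.2)) V σ ≤ 1 ↔
      ∀ x, chr (z.nrm V x.2) (kk x.1) * σ x ∈ V.1 := by
  rw [nm_le]
  refine forall_congr' fun x => ?_
  rw [← RZ.le_one_iff, map_mul, v_chr_nrm, one_mul, inv_mul_le_iff₀ (val_pos _ _), mul_one]

theorem nm_mpL_le (hψ : HZ k2 kk ψ) (hz : z.NZ) (V : RZ ℂ K) (σ : P × I → K) :
    nm (fun x : Q × I => lw (k2 x.1) (z.y x.2)) V (mpL ψ z σ) ≤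
      nm (fun x : P × I => lw (kk x.1) (z.y x.2)) V σ :=
  nm_le_of_one (U := ⊤) (fun σ _ h => nm_le_iff.2 fun x => by
    rw [← congrFun (mpL_gau hψ (Cfg.nrm_ne V z) z σ) x]
    exact (mpL_red0 (p := LP.at V) (Cfg.pr_nrm hz V) (nm_le_iff.1 h) x).1) trivial

theorem ont_of (hψ : HZ k2 kk ψ) (hz : z.NZ) {U : Submodule K (P × I → K)}
    (h : ∀ V : RZ ℂ K, Module.finrank K (U.map (mpL ψ z)) ≤ Module.finrank (Rf V)
      ((redS (plV V) (sclS (fun x => chr (z.nrm V x.2) (kk x.1)) U)).map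
        (mpL ψ (z.red (plV V))))) :
    Ont (fun x : P × I => lw (kk x.1) (z.y x.2)) (fun x : Q × I => lw (k2 x.1) (z.y x.2))
      (mpL ψ z) U where
  le V σ _ := nm_mpL_le hψ hz V σ
  sur V σ hσ := by
    refine sur_of_rank (p := LP.at V) (g := fun x => (chr (z.nrm V x.2) (k2 x.1))⁻¹)
      (fun x => by rw [map_inv₀]; exact inv_eq_iff_eq_inv.2 (v_chr_nrm V z _ _))
      (fun σ _ => nm_mpL_le hψ hz V σ) ((h V).trans (Submodule.finrank_mono ?_)) hσ
    rw [Submodule.map_le_iff_le_comap]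
    refine redS_le ?_
    rintro _ ⟨u, hu, rfl⟩ hi
    refine Submodule.subset_span ⟨u, hu, nm_le_iff.2 hi, _root_.funext fun x => ?_⟩
    rw [div_inv_eq_mul, mul_comm, ← congrFun (mpL_gau hψ (Cfg.nrm_ne V z) z u) x]
    exact ((mpL_red0 (p := LP.at V) (Cfg.pr_nrm hz V) hi x).2).symm

end Gen

variable {J : Type} [Fintype J] [DecidableEq J] {io : Option J → Type} [∀ j, Fintype (io j)]
  [∀ j, DecidableEq (io j)] {A A' : Type} [Fintype A] [Fintype A']
  {I I₀ M K E : Type} [Fintype I] [Fintype I₀] [Field K] [Algebra ℂ K] [Field E] [Algebra ℂ E]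
  {z z' : Cfg io I K} {g : I₀ → I} {N n : ℕ} {d : J → ℕ}

theorem exd_le {κ : J → ℕ} (hκ : ∀ j, κ j ≤ N) : ∀ j, exd κ 0 j ≤ N
  | none => Nat.zero_le _
  | some j => hκ j

theorem dot_exd (κ d : J → ℕ) (m n : ℕ) : dot (exd κ m) (exd d n) = m * n + dot κ d :=
  Fintype.sum_option _

theorem dot_exd0 (κ d : J → ℕ) (n : ℕ) : dot (exd κ 0) (exd d n) = dot κ d := by
  rw [dot_exd, zero_mul, zero_add]

theorem dot_none (d : J → ℕ) (n : ℕ) : dot (Pi.single none 1) (exd d n) = n := by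
  simp [dot, Fintype.sum_option, exd]

theorem lw_exd (κ : J → ℕ) (y : Pnt io K) : lw (exd κ 0) y = lw κ (prP y) := by
  rw [lw, Fintype.sum_option]
  exact (congrArg (· + _) (zero_nsmul _)).trans (zero_add _)

theorem chr_exd (c : Option J → K) (κ : J → ℕ) :
    chr c (exd κ 0) = chr (fun j => c (some j)) κ := by
  rw [chr, Fintype.prod_option]
  exact (congrArg (· * _) (pow_zero _)).trans (one_mul _)

theorem prC_gau (c : I → Option J → K) (z : Cfg io I K) :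
    prC (z.gau c) = (prC z).gau fun q j => c q (some j) :=
  Cfg.ext (fun _ => rfl) fun κ => congrArg (sclS · _) (_root_.funext fun q => chr_exd (c q) κ)

theorem prC_red (p : Pl ℂ K ℂ E) (z : Cfg io I K) : prC (z.red p) = (prC z).red p :=
  congrArg (Cfg.red0 p) (prC_gau (z.nrm p.V) z)

theorem prC_res (g : I₀ → I) (z : Cfg io I K) : prC (z.res g) = (prC z).res g := rfl

theorem nz_prC (h : z.NZ) : (prC z).NZ := fun q j => h q (some j)

theorem prD_cfg (η : Dat io (exd d n) I K) : (prD η).cfg = prC η.cfg :=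
  Cfg.ext (fun _ => rfl) fun κ => by
    change Submodule.map ((prD η).evl (dot κ d)) (degreeLE K (dot κ d : ℕ)) =
      Submodule.map (η.evl (dot (exd κ 0) (exd d n))) (degreeLE K (dot (exd κ 0) (exd d n) : ℕ))
    rw [dot_exd0]
    rfl

omit [Fintype I] in
theorem nrmUp_prD {η : Dat io (exd d n) I K} (h : η.NrmUp N) : (prD η).NrmUp N := by
  intro κ hκ L _ _ α W σ hσ h1 t
  have := h (exd κ 0) (exd_le hκ) L α W σ
  simp only [dot_exd0, lw_exd] at this
  exact this hσ h1 t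

variable {T : Tgt (bs io) A} {T' : Tgt io A'} {B : Th}

theorem on_prC (G : Gr T T' d) (h : z.On T') : (prC z).On T := fun q => Emb71.on_prP G (h q)



variable {r : A → A' → MvPolynomial (Vr io) ℂ}

theorem ea_prC (T : Tgt (bs io) A) (z : Cfg io I K) :
    (prC z).ea T = fun x => lw (exd (T.k x.1) 0) (z.y x.2) :=
  _root_.funext fun _ => (lw_exd _ _).symm

theorem sv_prC (hr : IsR T T' r) (z : Cfg io I K) : (prC z).sv T = mpL r z (z.sv T') := by
  funext x
  rw [mpL_apply]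
  change pv (prP (z.y x.2)) (T.F x.1) = _
  rw [← Emb71.pv_upq, hr.2, pv, map_sum]
  exact Finset.sum_congr rfl fun b _ => map_mul _ _ _

theorem dv_le (G : Gr T T' d) (hr : IsR T T' r) (hz : z.NZ) (h : ¬ (prC z).On T) :
    z.dv T' ≤ (prC z).dv T := fun V => by
  rw [Cfg.val_dv T h, Cfg.val_dv T' fun h0 => h (on_prC G h0)]
  refine inv_anti₀ (nm_pos fun h0 => h ((Cfg.on_iff T).2 h0)) ?_
  rw [ea_prC, sv_prC hr]
  exact nm_mpL_le hr.1 hz V _

/-! ### the relative tangent class -/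

variable (io) in
/-- the new coordinates as equations -/
def T0 : Tgt io (io none) where
  F a := MvPolynomial.X ⟨none, a⟩
  k _ := Pi.single none 1
  hom _ := MvPolynomial.isWeightedHomogeneous_X _ _ _

theorem sv_T0 (z : Cfg io I K) (x : io none × I) : z.sv (T0 io) x = z.y x.2 none x.1 :=
  MvPolynomial.aeval_X _ _

theorem k_T0 (hN : 1 ≤ N) (a : io none) (j : Option J) : (T0 io).k a j ≤ N := by
  change (Pi.single none 1 : Option J → ℕ) j ≤ N
  rw [Pi.single_apply]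
  split_ifs <;> omega

variable (B) in
/-- the Chern polynomial of the sections of the relative tangent bundle -/
def R0 (z : Cfg io I K) : (B.H K)[X] := B.cp2 (z.ea (T0 io)) (K ∙ z.sv (T0 io)) (z.Vt (T0 io))

section R0

variable (hB : B.Ax) [Algebra.EssFiniteType ℂ K]
include hB

theorem R0_geq (h : Cfg.Geq z z') (hz : z.NZ) (hs : z.sv (T0 io) ∈ z.Vt (T0 io)) :
    R0 B z' = R0 B z := by
  obtain ⟨c, hc, rfl⟩ := h
  rw [R0, R0, Cfg.Vt_gau _ hc, ← hB.cp2_dia (fun x : io none × I => chr_ne (hc x.2) _)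
    (congrFun (Cfg.ea_gau (T0 io) hz hc)) ((Submodule.span_singleton_le_iff_mem _ _).2 hs),
    Submodule.map_span, Set.image_singleton, Cfg.sv_gau]
  rfl

theorem R0_geqN (hN : 1 ≤ N) (h : Cfg.GeqN N z z') (hz : z.NZ)
    (hs : z.sv (T0 io) ∈ z.Vt (T0 io)) : R0 B z' = R0 B z := by
  have h1 : ∀ w : Cfg io I K, R0 B (w.tr N) = R0 B w := fun w => by
    rw [R0, Cfg.Vt_tr (k_T0 hN)]
    rfl
  rw [← h1, ← h1 z]
  exact R0_geq hB (Cfg.geqN_iff.1 h) hz (by rwa [Cfg.Vt_tr (k_T0 hN)])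

theorem R0_res (h : z.Nr g (Pi.single none 1)) (hs : z.sv (T0 io) ∈ z.Vt (T0 io)) :
    R0 B (z.res g) = R0 B z := by
  rw [R0, R0, Cfg.Vt_res, ← hB.cp2_iso (φ := LinearMap.funLeft K K (Prod.map id g))
    ((Submodule.span_singleton_le_iff_mem _ _).2 hs)
    fun V σ hσ => Cfg.nm_res (T := T0 io) (fun _ => h) hσ V, Submodule.map_span,
    Set.image_singleton]
  rfl

variable [Algebra.EssFiniteType ℂ E]

theorem R0_red0 {p : LP K E} (hz : z.Pr p.V) (hs : z.sv (T0 io) ∈ z.Vt (T0 io)) :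
    R0 B (z.red0 p.toPl) = (R0 B z).map (B.pb p : B.H K →+* B.H E) := by
  have h1 : Itg p (z.sv (T0 io)) := hz.sv_mem _
  have h2 : rd p (K ∙ z.sv (T0 io)) = E ∙ (z.red0 p.toPl).sv (T0 io) := by
    rw [Cfg.sv_red0 _ p.lnr hz]
    by_cases h0 : z.sv (T0 io) = 0
    · simp [h0, rd_bot, ← Pi.zero_def]
    · obtain ⟨x, -⟩ := Function.ne_iff.1 h0
      obtain ⟨i, hi⟩ := (hz x.2 none).2
      have h3 : rv p (z.sv (T0 io)) ∉ rd p ⊥ := fun h => by
        rw [rd_bot, Submodule.mem_bot] at h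
        exact Pl.r_ne_zero_iff.2 ((congrArg _ (sv_T0 z (i, x.2))).trans hi) (congrFun h (i, x.2))
      have := rd_sup h1 h3
      rwa [rd_bot, bot_sup_eq, bot_sup_eq] at this
  rw [R0, R0, hB.cp2_rd (hz.val_ea _) ((Submodule.span_singleton_le_iff_mem _ _).2 hs), h2, rd_eq,
    Cfg.redS_Vt, Cfg.ea_red0 _ hz]

theorem R0_red (p : LP K E) (hz : z.NZ) (hM : z.Mul) :
    R0 B (z.red p.toPl) = (R0 B z).map (B.pb p : B.H K →+* B.H E) := by
  rw [← R0_geq hB (Cfg.geq_gau z (Cfg.nrm_ne p.V z)) hz (hM.sv_mem _)]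
  exact R0_red0 hB (Cfg.pr_nrm hz _) ((hM.gau _).sv_mem _)

theorem R0_map (α : K →ₐ[ℂ] E) (hz : z.NZ) (hs : z.sv (T0 io) ∈ z.Vt (T0 io)) :
    R0 B (z.map α) = (R0 B z).map (B.pb (LP.hom α) : B.H K →+* B.H E) := by
  rw [← Cfg.red0_hom]
  exact R0_red0 hB (Cfg.pr_hom α hz) hs

end R0

end Crest.Agent.X262.Emb
end
end

-- ▼ part X262/Emb11/Wh
section

/-!
# Row 262, road B, EMB (helper11), part 2: the factorisation of the Chern polynomial

* `Loc` : the exact sequence on tree-like configurations;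
* `Loc.whit` : `cp Eb' = cp Eb * R0`;   `Loc.root` : `R0 (h) = 0` where `H < D`.
-/

set_option autoImplicit false
set_option linter.unusedSectionVars false

noncomputable section

namespace Crest.Agent.X262.Emb

open Crest.Agent.X277 Crest.Agent.X277.BD Crest.Agent.X277.Pst Crest.Agent.X277.BD.Cyc Polynomial
open Crest.Agent.X262.Hb Crest.Agent.X262.Vb
open Crest.Agent.X262.Tree87 (TL HZ mpL mpL_apply pM pR pK)
open Crest.Agent.X262.Node22 (scl chr chr_ne mem_Vt)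
open Crest.Agent.X262.Sym65 (cf)

variable {J : Type} [Fintype J] [DecidableEq J] {io : Option J → Type} [∀ j, Fintype (io j)]
  [∀ j, DecidableEq (io j)] {A A' : Type} [Fintype A] [Fintype A']
  {I K E : Type} [Fintype I] [Field K] [Algebra ℂ K] [Field E] [Algebra ℂ E]
  {z : Cfg io I K} {N n c : ℕ} {d : J → ℕ} {T : Tgt (bs io) A} {T' : Tgt io A'} {B : Th}
  {r : A → A' → MvPolynomial (Vr io) ℂ}

variable (T T' r d n N) in
/-- the exact sequence of obstruction spaces on tree-like configurations -/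
structure Loc : Prop where
  isR : IsR T T' r
  big : Fintype.card (io none) + 2 ≤ N
  kle : ∀ a j, T'.k a j ≤ N
  red : ∀ {I K E : Type} [Fintype I] [Field K] [Algebra ℂ K] [Field E] [Algebra ℂ E] (p : LP K E)
    (z : Cfg io I K), z.Pr p.V → TL (exd d n) N z → TL (exd d n) N (z.red0 p.toPl) → z.On T' →
    (z.red0 p.toPl).Eb T' = redS p.toPl (z.Eb T')
  ex : ∀ {I E : Type} [Fintype I] [Field E] [Algebra ℂ E] (z : Cfg io I E), TL (exd d n) N z →
    z.On T' → (z.Eb T').map (phi r z) = (prC z).Eb T ∧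
      z.Eb T' ⊓ LinearMap.ker (phi r z) = Tk T' z ∧ Module.finrank E (Tk T' z) = mp io n ∧
      ∀ q, Module.finrank E (pR (jac0 T') (z.y q)) = Fintype.card (io none) - 1

theorem exists_loc (hE : ExactStmt) (G : Gr T T' d) (hr : IsR T T' r) (hT : Good T c d)
    (hT' : Good T' (cp' io c) (exd d n)) : ∃ N₀, ∀ N, N₀ ≤ N → Loc N n d T T' r := by
  obtain ⟨N₁, h1⟩ := hE G r c n hr hT hT'
  obtain ⟨-, S, hS⟩ := hT'
  obtain ⟨N₂, h2⟩ := Tree87.exists_big S
  refine ⟨N₁ + N₂ + (Fintype.card (io none) + 2), fun N hN => ⟨hr, by omega,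
    (h2 N (by omega)).k_le, fun p z hz t1 t2 hO => ?_, fun z => h1 N z (by omega)⟩⟩
  exact (Tree87.Eb_red0 p.lnr (fun q j => (hz q j).1) t1 t2 hS (h2 N (by omega)) hO).1

theorem hz_jac0 (T' : Tgt io A') : HZ T'.k (T0 io).k (jac0 T') :=
  fun a i => Tree87.hz_jac T' a ⟨none, i⟩

theorem euler0 {y : Pnt io K} (h : T'.On y) : y none ∈ pK (jac0 T') y := by
  refine Tree87.mem_pK.2 fun a => ?_
  have := congrFun (Node22.jac_euler T' h (Pi.single none 1)) a
  rw [Node22.jac_apply, Fintype.sum_sigma, Fintype.sum_option] at this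
  simp only [Node22.vsc_apply, Pi.single_eq_same, one_mul, ne_eq, reduceCtorEq, not_false_eq_true,
    Pi.single_eq_of_ne, zero_mul, mul_zero, Finset.sum_const_zero, add_zero] at this
  exact this

/-- tree-like, with all reductions -/
def TLa (d : Option J → ℕ) (N : ℕ) (z : Cfg io I K) : Prop :=
  TL d N z ∧ ∀ V, TL d N (z.red (plV V))

theorem tla_red {e : Option J → ℕ} {η : Dat io e I K} (h : η.NrmUp N) (p : LP K E) :
    TLa e N (η.cfg.red p.toPl) := by
  refine ⟨Bub96.tl_red h _, fun V => ?_⟩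
  obtain ⟨c, hc, h1⟩ := Cfg.red_comp p (LP.at V) (Tree87.nz_cfg η)
  exact (show _ = _ from h1) ▸ (Bub96.tl_red h _).gau hc

namespace Loc

variable (h : Loc N n d T T' r)
include h

theorem sv_mem (hz : TL (exd d n) N z) : z.sv (T0 io) ∈ z.Vt (T0 io) :=
  hz.sv_mem_Vt (k_T0 (by have := h.big; omega))

theorem ker_jac0 (hP : PropStmt) (hz : TL (exd d n) N z) (hO : z.On T') :
    z.Vt (T0 io) ⊓ LinearMap.ker (mpL (jac0 T') z) = K ∙ z.sv (T0 io) := by
  refine le_antisymm (fun σ hσ => ?_) ((Submodule.span_singleton_le_iff_mem _ _).2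
    ⟨h.sv_mem hz, Tree87.mem_ker_mpL.2 fun q => by simpa only [sv_T0] using euler0 (hO q)⟩)
  have h1 : ∀ q, ∃ t : K, ∀ a, σ (a, q) = t * z.y q none a := fun q => by
    obtain ⟨i, hi⟩ := hz.nz q none
    have h2 := Tree87.finrank_pR_add_pK (jac0 T') (z.y q)
    have h3 : 0 < Fintype.card (io none) := Fintype.card_pos_iff.2 ⟨i⟩
    rw [(h.ex z hz hO).2.2.2 q] at h2
    have h4 : Module.finrank K (pK (jac0 T') (z.y q)) = 1 := by omega
    obtain ⟨t, ht⟩ := (finrank_eq_one_iff_of_nonzero' (⟨_, euler0 (hO q)⟩ : pK (jac0 T') (z.y q))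
      fun h0 => hi (congrFun (congrArg Subtype.val h0) i)).1 h4
      ⟨_, Tree87.mem_ker_mpL.1 hσ.2 q⟩
    exact ⟨t, fun a => (congrFun (congrArg Subtype.val ht) a).symm⟩
  obtain ⟨μ, hμ⟩ := hP z (AlgHom.id ℂ K) none hz (by have := h.big; omega) (fun a q => σ (a, q))
    (fun a => by rw [mapS_id]; exact mem_Vt.1 hσ.1 a) fun q a b => by
      obtain ⟨t, ht⟩ := h1 q
      simp only [ht, AlgHom.id_apply]
      ring
  exact Submodule.mem_span_singleton.2 ⟨μ, _root_.funext fun x => by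
    rw [Pi.smul_apply, sv_T0]; exact (hμ x.1 x.2).symm⟩

theorem finrank_Vt0 (hz : TL (exd d n) N z) :
    Module.finrank K (z.Vt (T0 io)) = Fintype.card (io none) * (n + 1) := by
  obtain ⟨k, _, _, _, ⟨D⟩⟩ := hz
  have := D.finrank_Am (kk := (T0 io).k) fun b j =>
    (Nat.mul_le_mul_left _ (k_T0 le_rfl b j)).trans (by have := h.big; omega)
  exact this.trans (by simp [T0, dot_none])

theorem sv_ne (hz : TL (exd d n) N z) : z.sv (T0 io) ≠ 0 := fun h0 => by
  rcases isEmpty_or_nonempty I with hI | ⟨⟨q⟩⟩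
  · have := hz.finrank_V (κ := 0) fun _ => Nat.zero_le _
    rw [Module.finrank_zero_of_subsingleton] at this
    omega
  · obtain ⟨i, hi⟩ := hz.nz q none
    exact hi ((sv_T0 z (i, q)).symm.trans (congrFun h0 _))

theorem finrank_quo (hz : TL (exd d n) N z) :
    Module.finrank K (z.Vt (T0 io)) = Module.finrank K (K ∙ z.sv (T0 io)) + mp io n := by
  have h1 := Submodule.finrank_mono ((Submodule.span_singleton_le_iff_mem _ _).2 (h.sv_mem hz))
  rw [finrank_span_singleton (h.sv_ne hz)] at h1 ⊢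
  rw [h.finrank_Vt0 hz] at h1 ⊢
  rw [mp]
  omega

theorem map_jac0 (hP : PropStmt) (hz : TL (exd d n) N z) (hO : z.On T') :
    (z.Vt (T0 io)).map (mpL (jac0 T') z) = Tk T' z := by
  refine Submodule.eq_of_le_of_finrank_eq ?_ ?_
  · rintro _ ⟨σ, hσ, rfl⟩
    obtain ⟨k, _, _, _, ⟨D⟩⟩ := hz
    exact Tree87.mem_Rb.2 ⟨Tree87.mem_Am.1 (D.mpL_mem (hz_jac0 T')
      (k_T0 (by have := h.big; omega)) h.kle hσ), fun q => ⟨_, (Tree87.mpL_at _ z σ q).symm⟩⟩
  · have h1 := Node22.finrank_map_add (mpL (jac0 T') z) (z.Vt (T0 io))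
    rw [h.ker_jac0 hP hz hO, h.finrank_quo hz] at h1
    rw [(h.ex z hz hO).2.2.1]
    omega

variable (hB : B.Ax) [Algebra.EssFiniteType ℂ K]
include hB

theorem cp_Tk (hP : PropStmt) (hz : TLa (exd d n) N z) (hO : z.On T') :
    B.cp (z.ea T') (Tk T' z) = R0 B z := by
  rw [← h.map_jac0 hP hz.1 hO, R0, ← h.ker_jac0 hP hz.1 hO]
  refine (hB.cp2_ont (ont_of (hz_jac0 T') hz.1.nz fun V => ?_)).symm
  have h1 := hO.red T' (lnr_plV V) hz.1.nz
  rw [← Cfg.Vt_gau _ (Cfg.nrm_ne V z), Cfg.redS_Vt, h.map_jac0 hP hz.1 hO, (h.ex z hz.1 hO).2.2.1]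
  exact ((congrArg (fun U : Submodule _ _ => Module.finrank _ U) (h.map_jac0 hP (hz.2 V) h1)).trans
    (h.ex _ (hz.2 V) h1).2.2.1).ge

theorem whit (hP : PropStmt) (hz : TLa (exd d n) N z) (hO : z.On T') :
    cpz B T' z = cpz B T (prC z) * R0 B z := by
  obtain ⟨h1, h2, h3, -⟩ := h.ex z hz.1 hO
  rw [cpz, cpz, ← h.cp_Tk hB hP hz hO, ← h1, ← h2, ea_prC, mul_comm]
  refine hB.cp_whitney (ont_of h.isR.1 hz.1.nz fun V => ?_)
  have h4 := hO.red T' (lnr_plV V) hz.1.nz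
  have h5 := h.red (LP.at V) _ (Cfg.pr_nrm hz.1.nz V) (hz.1.gau (Cfg.nrm_ne V z)) (hz.2 V)
    ((Cfg.on_gau T' (Cfg.nrm_ne V z)).2 hO)
  obtain ⟨-, h6, h7, -⟩ := h.ex _ (hz.2 V) h4
  have h8 := Node22.finrank_map_add (phi r z) (z.Eb T')
  have h9 := Node22.finrank_map_add (phi r (z.red (plV V))) ((z.red (plV V)).Eb T')
  have h10 : Module.finrank (Rf V) ((z.red (plV V)).Eb T') = Module.finrank K (z.Eb T') :=
    (congrArg (fun U : Submodule _ _ => Module.finrank _ U) h5).trans ((finrank_redS _ _).trans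
      ((Cfg.geq_gau z (Cfg.nrm_ne V z)).finrank_Eb T'))
  rw [h2, h3] at h8
  rw [h6, h7, h10] at h9
  rw [← Cfg.Eb_gau _ (Cfg.nrm_ne V z)]
  change Module.finrank K ((z.Eb T').map (phi r z)) ≤ Module.finrank (Rf V)
    ((redS (LP.at V).toPl _).map (phi r (z.red (plV V))))
  rw [← h5]
  exact (Nat.add_right_cancel (h8.trans h9.symm)).le

omit [Algebra.EssFiniteType ℂ K] in
theorem root [Algebra.EssFiniteType ℂ E] (hP : PropStmt) (G : Gr T T' d) (hR : Rk T' z)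
    (hO : ¬ (prC z).On T) {p : LP K E} (hz : TLa (exd d n) N (z.red p.toPl))
    (hp : (z.red p.toPl).On T') (hlt : (z.dv T').val p.V < ((prC z).dv T).val p.V) :
    (R0 B (z.red p.toPl)).eval (cf B (z.dv T') E p) = 0 := by
  have hP' := Cfg.pr_nrm hR.nz p.V
  have hd := Cfg.dv_gau T' hR.nz (Cfg.nrm_ne p.V z)
  have h0 : (z.gau (z.nrm p.V)).sv T' ≠ 0 := fun h0 =>
    hO (on_prC G ((Cfg.on_gau T' (Cfg.nrm_ne p.V z)).1 ((Cfg.on_iff T').2 h0)))
  have hg := gen_ne (z.dv T') p.V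
  have h1 : nm ((z.gau (z.nrm p.V)).ea T') p.V
      ((z.dv T').gen p.V • (z.gau (z.nrm p.V)).sv T') = 1 := by
    rw [nm_smul, v_gen, ← hd, Cfg.dv, val_neg, val_sz h0, inv_mul_cancel₀ (nm_pos h0).ne']
  have h2 : Itg p ((z.dv T').gen p.V • (z.gau (z.nrm p.V)).sv T') :=
    (itg_iff (hP'.val_ea T')).2 h1.le
  have h3 : rv p ((z.dv T').gen p.V • (z.gau (z.nrm p.V)).sv T') ≠ 0 :=
    (rv_eq_zero (hP'.val_ea T') h2).not.2 h1.not_lt
  have h4 : z.dv T' - pr ℂ ((z.dv T').gen p.V) =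
      -sz ((z.dv T').gen p.V • (z.gau (z.nrm p.V)).sv T') ((z.gau (z.nrm p.V)).ea T') := by
    rw [sz_smul h0 hg, neg_add, ← Cfg.dv, hd]
    abel
  have h5 : rv p ((z.dv T').gen p.V • (z.gau (z.nrm p.V)).sv T') ∈ Tk T' (z.red p.toPl) := by
    rw [← (h.ex _ hz.1 hp).2.1]
    refine ⟨hR.sv p hp _ h2, _root_.funext fun x => ?_⟩
    have h6 : Cfg.Geq (prC z) (prC (z.gau (z.nrm p.V))) :=
      prC_gau _ z ▸ Cfg.geq_gau _ fun q j => Cfg.nrm_ne p.V z q (some j)
    have h7 : (prC (z.gau (z.nrm p.V))).Pr p.V := fun q j => hP' q (some j)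
    obtain ⟨h8, h9⟩ := mpL_red0 (ψ := r) hP' h2 x
    refine h9.symm.trans ((Pl.r_eq_zero h8).2 ?_)
    rw [map_smul, ← sv_prC h.isR]
    refine (le_nm ((prC (z.gau (z.nrm p.V))).ea T) p.V _ x).trans_lt ?_
    rw [h7.val_ea, mul_one, nm_smul, v_gen, ← inv_inv (nm _ _ _),
      ← Cfg.val_dv T ((h6.on T).not.2 hO), h6.dv T (nz_prC hR.nz)]
    exact (mul_inv_lt_iff₀ (val_pos _ _)).2 (by rwa [one_mul])
  rw [cf, hB.pb_c1_gen p (v_gen _ _), h4, Pl.res_neg (by rw [val_sz (smul_ne_zero hg h0), h1]),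
    res_sz p.toPl (hP'.val_ea T') h1, ← h.cp_Tk hB hP hz hp, Cfg.red, Cfg.ea_red0 T' hP']
  exact (congrArg (fun b => eval (B.c1 (-b)) _) (sz_eq_dst h3 _)).trans (hB.eval_cp_line h5 h3)

end Loc

end Crest.Agent.X262.Emb
end
end

-- ▼ part X262/Emb11/Cr
section

/-!
# Row 262, road B, EMB (helper11), part 3: descent of the classes to the old moduli

* `Dsc`, `Sit` : the situation;  `Sit.R0_desc`, `Sit.tau`, `Sit.rank`;
* `Sit.low`  : only the leading coefficient of `R0` contributes;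
* `Sit.term` : the contribution of a component of the pulled back divisor.
-/

set_option autoImplicit false
set_option linter.unusedSectionVars false

noncomputable section

namespace Crest.Agent.X262.Emb

open Crest.Agent.X277 Crest.Agent.X277.BD Crest.Agent.X277.Pst Crest.Agent.X277.BD.Cyc Polynomial
open Crest.Agent.X262.Geo (od od_eq_zero essFT_Rf dim_Rf')
open Crest.Agent.X262.Hb Crest.Agent.X262.Vb
open Crest.Agent.X262.Tree87 (TL)
open Crest.Agent.X262.Val40 (dn rf rf_r mem_dn dim_rf dvs_dn)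
open Crest.Agent.X262.Sym65 (PF PX cf qv sm i1 i2 Liv Sup)

variable {J : Type} [Fintype J] [DecidableEq J] {io : Option J → Type} [∀ j, Fintype (io j)]
  [∀ j, DecidableEq (io j)] {A A' : Type} [Fintype A] [Fintype A']
  {I I' M K L E E₀ : Type} [Fintype I] [Fintype I'] [Field K] [Algebra ℂ K] [Field L] [Algebra ℂ L]
  [Field E] [Algebra ℂ E] [Field E₀] [Algebra ℂ E₀]
  {N n : ℕ} {d : J → ℕ} {T : Tgt (bs io) A} {T' : Tgt io A'} {B : Th}
  {r : A → A' → MvPolynomial (Vr io) ℂ}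
  {lf : ∀ (I E : Type) [Field E] [Algebra ℂ E], Cfg (bs io) I E → Cfg io I E}

theorem itg_low (hB : B.Ax) [Algebra.EssFiniteType ℂ E₀] [Algebra.EssFiniteType ℂ E]
    (β : E₀ →ₐ[ℂ] E) (f : (B.H E₀)[X]) (τ : B.H E₀) (b : BD ℂ E) {m : ℕ} {F : (B.H E)[X]}
    (hF : F = f.map (B.pb (LP.hom β) : B.H E₀ →+* B.H E)) (h1 : F.coeff (m + 1) = (-1) ^ (m + 1))
    (h2 : ∀ i, m + 1 < i → F.coeff i = 0) (hd : m + dim ℂ E₀ ≤ dim ℂ E) :
    B.itg E ((-F.divX).eval (B.c1 b) * B.pb (LP.hom β) τ) =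
      (-1) ^ m * B.itg E (B.c1 b ^ m * B.pb (LP.hom β) τ) := by
  have h3 : (-F.divX).natDegree < m + 1 := Nat.lt_succ_of_le (natDegree_le_iff_coeff_eq_zero.2
    fun i hi => by rw [coeff_neg, coeff_divX, h2 _ (by omega), neg_zero])
  rw [eval_eq_sum_range' h3, Finset.sum_range_succ, add_mul, map_add, Finset.sum_mul, map_sum,
    Finset.sum_eq_zero fun i hi => ?_, zero_add, coeff_neg, coeff_divX, h1]
  · rcases Nat.even_or_odd m with h' | h' <;> simp [pow_succ, h'.neg_one_pow]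
  · rw [coeff_neg, coeff_divX, hF, coeff_map, ← Tr89.pc_replicate,
      ← Tr89.zer hB i β (-f.coeff (i + 1) * τ) (List.replicate i b) List.length_replicate
        (by have := Finset.mem_range.1 hi; omega), map_mul (B.pb _), map_neg (B.pb _)]
    congr 1
    rw [RingHom.coe_coe]
    ring

theorem sv_mem_geqN {z z' : Cfg io I K} (h : Cfg.GeqN 1 z z') (hs : z.sv (T0 io) ∈ z.Vt (T0 io)) :
    z'.sv (T0 io) ∈ z'.Vt (T0 io) := by
  obtain ⟨c, hc, h1⟩ := Cfg.geqN_iff.1 h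
  rw [← Cfg.Vt_tr (k_T0 le_rfl)] at hs ⊢
  change (z'.tr 1).sv _ ∈ _
  rw [h1, Cfg.sv_gau, Cfg.Vt_gau _ hc]
  exact scl_mem hs

theorem single_le (j : Option J) : (Pi.single none 1 : Option J → ℕ) j ≤ 1 := by
  rw [Pi.single_apply]
  split_ifs <;> omega

variable (N d T' lf) in
/-- the conclusion of `DescStmt` -/
def Dsc : Prop :=
  ∀ {I I₀ E E₀ : Type} [Fintype I] [Fintype I₀] [Field E] [Algebra ℂ E] [Field E₀]
    [Algebra ℂ E₀] (n : ℕ) (z : Cfg io I E) (g : I₀ → I) (z₀ : Cfg (bs io) I₀ E₀)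
    (β : E₀ →ₐ[ℂ] E), TL (exd d n) N z → z.On T' →
    (∀ κ : J → ℕ, (∀ j, κ j ≤ N) → InjOn g (z.V (exd κ 0))) →
    GeqUp N (z₀.map β) (prC (z.res g)) →
    (∀ κ : Option J → ℕ, (∀ j, κ j ≤ 1) → InjOn g (z.V κ)) ∧
      GeqUp 1 ((lf I₀ E₀ z₀).map β) (z.res g)

theorem Dsc.rank (h : Dsc N d T' lf) (hN : 1 ≤ N) {z : Cfg io I' E} {g : I → I'}
    {z₀ : Cfg (bs io) I E₀} {β : E₀ →ₐ[ℂ] E} (h1 : TL (exd d n) N z) (h2 : z.On T')
    (h3 : ∀ κ : J → ℕ, (∀ j, κ j ≤ N) → InjOn g (z.V (exd κ 0)))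
    (h4 : GeqUp N (z₀.map β) (prC (z.res g))) :
    Module.finrank E₀ ((lf I E₀ z₀).V (Pi.single none 1)) - 1 = n := by
  obtain ⟨h5, h6⟩ := h n z g z₀ β h1 h2 h3 h4
  have h7 := finrank_geqN (geqUp_iff.1 h6) single_le
  rw [finrank_res (h5 _ single_le), h1.finrank_V fun j => (single_le j).trans hN, dot_none] at h7
  rw [← finrank_mapS β]
  exact Nat.sub_eq_of_eq_add h7.symm

theorem Dsc.rank_lift (h : Dsc N d T' lf) (hN : 1 ≤ N) {ξ : Dat (bs io) d I K} {W : RZ ℂ K}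
    {ζ : Dat io (exd d n) I K} (hζ : LiftAt T' N ξ W ζ) :
    Module.finrank (Rf W) ((lf I (Rf W) (ξ.cfg.red (plV W))).V (Pi.single none 1)) - 1 = n := by
  refine h.rank hN (g := id) (β := AlgHom.id ℂ _) hζ.tl hζ.on
    (fun _ _ _ _ h0 => _root_.funext h0) (geqUp_iff.2 ?_)
  rw [Cfg.map_id, prC_res, prC_red, ← prD_cfg, hζ.prj]
  exact Cfg.GeqN.of_eq rfl fun κ _ => Submodule.map_id _

variable (N T T' r lf B) in
/-- the situation of `CoreStmt` -/
structure Sit (ξ : Dat (bs io) d I K) (α : K →ₐ[ℂ] L) (η : Dat io (exd d n) I' L) (g : I → I') :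
    Prop where
  nx : ξ.NrmUp N
  pr : prD (η.res g) = ξ.map α
  ne : η.NrmUp N
  loc : Loc N n d T T' r
  dsc : Dsc N d T' lf
  rk : Rk T ξ.cfg
  rk1 : Rk T (prC η.cfg)
  dv : (prC η.cfg).dv T = pb α (ξ.cfg.dv T)
  cp : ∀ {E : Type} [Field E] [Algebra ℂ E] [Algebra.EssFiniteType ℂ E] (p : LP L E),
    ((prC η.cfg).red p.toPl).On T → cpF B T (ξ.cfg.map α) E p = cpF B T (prC η.cfg) E p

variable (B T) in
/-- the integrand as a family -/
abbrev tF {J : Type} [Fintype J] [DecidableEq J] {io : J → Type} [∀ j, Fintype (io j)]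
    [∀ j, DecidableEq (io j)] (T : Tgt io A) (z : Cfg io I K) (m : M → I) (Φ : MFam B io M) :
    PF B K := qv (cpF B T z) (cf B (z.dv T)) * evF z m Φ

variable (B) in
/-- the global class `R0` as a family -/
abbrev RF (z : Cfg io I K) : PX B K := fun E _ _ p => (R0 B z).map (B.pb p : B.H K →+* B.H E)

namespace Sit

variable {ξ : Dat (bs io) d I K} {α : K →ₐ[ℂ] L} {η : Dat io (exd d n) I' L} {g : I → I'}
  (h : Sit N T T' B r lf ξ α η g) {p : LP L E} {p₀ : LP K E₀} {β : E₀ →ₐ[ℂ] E}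
include h

theorem one_le : 1 ≤ N := by have := h.loc.big; omega

theorem res_eq : (prC η.cfg).res g = ξ.cfg.map α := by
  rw [← prD_cfg, ← Dat.res_cfg, ← Vb37.cfg_map, ← h.pr]
  rfl

theorem nr : (prC η.cfg).NrUp g N := by
  rw [← prD_cfg]
  exact Dat.nrUp_cfg (show (prD (η.res g)).NrmUp N from h.pr ▸ Vb37.nrmUp_map h.nx α)

theorem geq (e : (LP.hom α).comp p = p₀.comp (LP.hom β)) :
    GeqUp N ((ξ.cfg.red p₀.toPl).map β) (prC ((η.cfg.red p.toPl).res g)) := by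
  rw [geqUp_iff, prC_res, prC_red]
  refine .trans ?_ (h.nr.res_red h.rk1.nz p.toPl).symm
  rw [h.res_eq]
  exact ((Cfg.map_red p₀ β h.rk.nz).symm.trans (e ▸ Cfg.red_map α p h.rk.nz)).geqN N

theorem inj (p : LP L E) (κ : J → ℕ) (hκ : ∀ j, κ j ≤ N) :
    InjOn g ((η.cfg.red p.toPl).V (exd κ 0)) := fun w hw h0 =>
  (h.nr.red h.rk1.nz p κ hκ).inj (by rw [← prC_red]; exact hw) h0

theorem desc (hp : (η.cfg.red p.toPl).On T') (e : (LP.hom α).comp p = p₀.comp (LP.hom β)) :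
    InjOn g ((η.cfg.red p.toPl).V (Pi.single none 1)) ∧
      Cfg.GeqN 1 ((lf I E₀ (ξ.cfg.red p₀.toPl)).map β) ((η.cfg.red p.toPl).res g) :=
  (h.dsc n _ g _ β (Bub96.tl_red h.ne _) hp (h.inj p) (h.geq e)).imp (· _ single_le) geqUp_iff.1

theorem rank (hp : (η.cfg.red p.toPl).On T') (e : (LP.hom α).comp p = p₀.comp (LP.hom β)) :
    Module.finrank E₀ ((lf I E₀ (ξ.cfg.red p₀.toPl)).V (Pi.single none 1)) - 1 = n :=
  Dsc.rank h.dsc h.one_le (Bub96.tl_red h.ne _) hp (h.inj p) (h.geq e)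

variable (hB : B.Ax) [Algebra.EssFiniteType ℂ K] [Algebra.EssFiniteType ℂ L]
  [Algebra.EssFiniteType ℂ E] [Algebra.EssFiniteType ℂ E₀] {m : M → I} {Φ : MFam B (bs io) M}
include hB

theorem R0_desc (hp : (η.cfg.red p.toPl).On T') (e : (LP.hom α).comp p = p₀.comp (LP.hom β)) :
    ∃ f : (B.H E₀)[X], RF B η.cfg E p = f.map (B.pb (LP.hom β) : B.H E₀ →+* B.H E) := by
  have h0 := η.cfg_nz.red p.toPl
  have hM := η.cfg_mul.red η.cfg_nz p.toPl
  have h1 : (η.cfg.red p.toPl).Nr g (Pi.single none 1) := nr_of_inj h0 fun U => by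
    have h2 := Cfg.red_comp p (LP.at U) η.cfg_nz
    exact injOn_geq h2 (h.desc (β := AlgHom.id ℂ _)
      ((h2.on T').1 (hp.red T' (lnr_plV U) h0)) (LP.comp_id _).symm).1
  have h2 := (h.desc hp e).2.symm
  have h3 := h2.nz (h0.res g)
  have h4 := sv_mem_geqN h2 ((hM.res g).sv_mem _)
  rw [Cfg.sv_map, Cfg.Vt_map, map_mem_mapS_iff] at h4
  refine ⟨R0 B (lf I E₀ (ξ.cfg.red p₀.toPl)), ?_⟩
  rw [← R0_map hB β (fun q => (nz_map β).1 (h3 q)) h4,
    R0_geqN hB le_rfl h2 (h0.res g) ((hM.res g).sv_mem _), R0_res hB h1 (hM.sv_mem _),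
    R0_red hB p η.cfg_nz η.cfg_mul]

theorem tau (hΦ : MCls B T Φ) (hp : ((prC η.cfg).red p.toPl).On T)
    (e : (LP.hom α).comp p = p₀.comp (LP.hom β)) :
    tF B T (prC η.cfg) (g ∘ m) Φ E p = B.pb (LP.hom β) (tF B T ξ.cfg m Φ E₀ p₀) := by
  have h1 := Cfg.red_map α p h.rk.nz
  have h2 : ((ξ.cfg.map α).red p.toPl).On T := h.res_eq ▸ fun q => hp (g q)
  have h3 := (h1.on T).1 h2
  have h4 : (ξ.cfg.red p₀.toPl).On T :=
    (Cfg.on_map T β).1 (((Cfg.map_red p₀ β h.rk.nz).on T).2 (e ▸ h3))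
  rw [← (h.rk.liv hB hΦ m _).nat _ _ p₀ (LP.hom β) ((mem_Zon h.rk.nz).2 h4), ← e]
  have h5 : evF (prC η.cfg) (g ∘ m) Φ E p = evF ξ.cfg m Φ E ((LP.hom α).comp p) := by
    rw [evF, evF, ← hΦ.geq h1 (h.rk.nz.red _) h3, ← h.res_eq]
    rfl
  have h6 : cpF B T (prC η.cfg) E p = cpF B T ξ.cfg E ((LP.hom α).comp p) :=
    (h.cp p hp).symm.trans (cpz_geq hB h1 (h.rk.nz.red _))
  have h7 : cf B ((prC η.cfg).dv T) E p = cf B (ξ.cfg.dv T) E ((LP.hom α).comp p) := by
    rw [cf, cf, h.dv, hB.pb_comp, hB.pb_c1_hom]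
  change (-(cpF B T _ E p).divX).eval (cf B _ E p) * evF _ _ Φ E p = _
  rw [h5, h6, h7]
  rfl

theorem low (G : Gr T T' d) (hΦ : MCls B T Φ) (hp : (η.cfg.red p.toPl).On T')
    (e : (LP.hom α).comp p = p₀.comp (LP.hom β)) {k : ℕ} (hk : mp io n = k + 1)
    (hd : k + dim ℂ E₀ ≤ dim ℂ E) (H : BD ℂ L) :
    B.itg E ((qv (cpF B T (prC η.cfg)) (cf B ((prC η.cfg).dv T)) * qv (RF B η.cfg) (cf B H) *
        evF (prC η.cfg) (g ∘ m) Φ) E p) =
      (-1) ^ k * B.itg E ((cf B H ^ k * tF B T (prC η.cfg) (g ∘ m) Φ) E p) := by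
  obtain ⟨f, hf⟩ := h.R0_desc hB hp e
  have h1 := h.tau (m := m) hB hΦ (prC_red p.toPl η.cfg ▸ on_prC G hp) e
  have h2 := Bub96.tl_red h.ne p.toPl
  have h3 := (Submodule.span_singleton_le_iff_mem _ _).2 (h.loc.sv_mem h2)
  have h4 := h.loc.finrank_quo h2
  have h5 : RF B η.cfg E p = R0 B (η.cfg.red p.toPl) := (R0_red hB p η.cfg_nz η.cfg_mul).symm
  rw [hk] at h4
  have := itg_low hB β f (tF B T ξ.cfg m Φ E₀ p₀) (p.rs H) hf (h5 ▸ hB.coeff_cp2_top h3 h4)
    (fun i hi => h5 ▸ hB.coeff_cp2_gt h3 h4 hi) hd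
  rw [← hB.pb_c1, ← h1] at this
  refine Eq.trans (congrArg _ ?_) this
  rw [mul_right_comm, mul_comm]
  rfl

open Classical in
theorem term (G : Gr T T' d) (hΦ : MCls B T Φ) (hm : 1 ≤ mp io n)
    (hd : dim ℂ L = dim ℂ K + mp io n) {V : RZ ℂ L} (hV : Dvs V) (hW : Dvs (dn α V))
    (hO : V ∈ Zon T (prC η.cfg)) :
    (if (η.cfg.dv T').val V = 1 then
      sm ((plV V).res (η.cfg.dv T')) (i2 (qv (cpF B T (prC η.cfg)) (cf B ((prC η.cfg).dv T)) *
        qv (RF B η.cfg) (cf B (η.cfg.dv T')) * evF (prC η.cfg) (g ∘ m) Φ) V)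
    else i1 (qv (cpF B T (prC η.cfg)) (cf B ((prC η.cfg).dv T)) * Sym65.pv (RF B η.cfg) 0 *
      evF (prC η.cfg) (g ∘ m) Φ) V) =
    if (η.cfg.dv T').val V = 1 then (-1) ^ (mp io n + 1) * B.itg (Rf V)
      (B.c1 ((plV V).res (η.cfg.dv T')) ^ mp io n *
        B.pb (LP.hom (rf α V)) (trm B T ξ.cfg m Φ (dn α V))) else 0 := by
  have := essFT_Rf hV
  have := essFT_Rf hW
  have d1 := dim_rf hV hW.ne_top
  have e0 : (LP.hom α).comp (LP.at V) = (LP.at (dn α V)).comp (LP.hom (rf α V)) :=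
    LP.ext fun x => by simpa [LP.at_toPl] using (rf_r α V x).symm
  have t0 := h.tau (m := m) hB hΦ (p := LP.at V) hO e0
  split_ifs with h1
  · obtain ⟨k, hk⟩ : ∃ k, mp io n = k + 1 := ⟨mp io n - 1, by omega⟩
    have l1 : Liv B (Zon T (prC η.cfg)) (cf B (η.cfg.dv T') ^ k * tF B T (prC η.cfg) (g ∘ m) Φ) :=
      ((Liv.cf hB _).pow k).mul (h.rk1.liv hB hΦ _ _)
    rw [Sym65.sm_congr (g := fun U => (-1) ^ k *
      i2 (cf B (η.cfg.dv T') ^ k * tF B T (prC η.cfg) (g ∘ m) Φ) V U) fun U hU h2 => ?_,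
      Sym65.sm_mul, ← Sym65.i1_cf hB l1 hV hO h1, hk, pow_succ, pow_succ, trm_eq, ← t0,
      ← LP.at_toPl V, ← hB.pb_c1_res (LP.at V) h1, ← mul_assoc, ← pow_succ']
    · rw [mul_neg_one, mul_neg_one, neg_neg]
      rfl
    · have := essFT_Rf hU
      have d2 := dim_Rf' hU
      have hp : (η.cfg.red ((LP.at V).comp (LP.at U)).toPl).On T' :=
        Cfg.on_red_of T' (LP.lnr _) η.cfg_nz
          ((Sym65.res_one_iff (LP.at V) h1).not.1 ((od_eq_zero hU).not.1 h2))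
      by_cases h3 : (dn (rf α V) U).1 = ⊤
      · refine h.low hB G hΦ hp (p₀ := LP.at (dn α V)) (β := Tr89.rh (rf α V) U fun x =>
          mem_dn.1 (h3 ▸ ValuationSubring.mem_top x)) (LP.ext fun x => ?_) hk (by omega) _
        simpa [LP.at_toPl, Tr89.rh] using congrArg (plV U).r (rf_r α V x).symm
      · have h4 := dvs_dn hU h3
        have := essFT_Rf h4
        have d3 := dim_Rf' h4
        refine h.low hB G hΦ hp (p₀ := (LP.at (dn α V)).comp (LP.at (dn (rf α V) U)))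
          (β := rf (rf α V) U) (LP.ext fun x => ?_) hk (by omega) _
        simpa [LP.at_toPl] using (congrArg (plV U).r (rf_r α V x).symm).trans (rf_r (rf α V) U _).symm
  · obtain ⟨f, hf⟩ := h.R0_desc hB (p := LP.at V) (on_at η.cfg_nz h1) e0
    rw [mul_right_comm, ← hB.van (rf α V) (by omega) (tF B T ξ.cfg m Φ _ (LP.at _) * f.eval 0),
      map_mul, ← t0, pb_eval, ← hf, map_zero]
    rfl

end Sit

end Crest.Agent.X262.Emb
end
end

-- ▼ part X262/Emb11/Core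
section

/-!
# Row 262, road B, EMB (helper11), part 4: the field-level statement
-/

set_option autoImplicit false
set_option linter.unusedSectionVars false

noncomputable section

namespace Crest.Agent.X262.Emb

open Crest.Agent.X277 Crest.Agent.X277.BD Crest.Agent.X277.Pst Crest.Agent.X277.BD.Cyc Polynomial
open Crest.Agent.X262.Geo (od od_eq_zero essFT_Rf dim_Rf')
open Crest.Agent.X262.Hb Crest.Agent.X262.Vb
open Crest.Agent.X262.Val40 (dn rf rf_r)
open Crest.Agent.X262.Div (rn cw)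
open Crest.Agent.X262.Sym65 (cf qv sm i1 i2 Liv LivX Sup TwoStmt)
open List (replicate)

open Classical in
/-- the fibrewise computation -/
structure ValH (B : Th) : Prop where
  rel : ∀ {K L : Type} [Field K] [Algebra ℂ K] [Algebra.EssFiniteType ℂ K] [Field L] [Algebra ℂ L]
    [Algebra.EssFiniteType ℂ L] (α : K →ₐ[ℂ] L) {m : ℕ}, dim ℂ L = dim ℂ K + m → 1 ≤ m →
    ∀ (H : BD ℂ L) {V : RZ ℂ L}, Dvs V → Dvs (dn α V) → ∀ (τ : B.H (Rf (dn α V)))
    (c : Fin (m + 1) → L), (∀ i, c i ≠ 0) → (∀ p : RZ ℂ L, dn α p = dn α V →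
      (H.val p = 1 ↔ (mxf ℂ c - mxf ℂ fun i => c (Fin.succ i)).val p = 1) ∧
      ((∀ x, (dn α V).v x < 1 → p.v (α x) * (mxf ℂ c - mxf ℂ fun i => c (Fin.succ i)).val p < 1) →
        H.val p = (mxf ℂ c - mxf ℂ fun i => c (Fin.succ i)).val p)) →
    (if H.val V = 1 then (-1) ^ (m + 1) * B.itg (Rf V)
      (B.c1 ((plV V).res H) ^ m * B.pb (LP.hom (rf α V)) τ) else 0) =
      cw α (replicate m (mxf ℂ c)) V * B.itg (Rf (dn α V)) τ
  far : ∀ {K L : Type} [Field K] [Algebra ℂ K] [Algebra.EssFiniteType ℂ K] [Field L] [Algebra ℂ L]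
    [Algebra.EssFiniteType ℂ L] (α : K →ₐ[ℂ] L) {m : ℕ}, dim ℂ L = dim ℂ K + m → 1 ≤ m →
    ∀ (H : BD ℂ L) {V : RZ ℂ L}, Dvs V → Dvs (dn α V) → ∀ (τ : B.H (Rf (dn α V))),
    (∀ p : RZ ℂ L, dn α p = dn α V → H.val p = 1) →
    B.itg (Rf V) (B.c1 ((plV V).res H) ^ m * B.pb (LP.hom (rf α V)) τ) = 0
  sm : ∀ {K L : Type} [Field K] [Algebra ℂ K] [Algebra.EssFiniteType ℂ K] [Field L] [Algebra ℂ L]
    [Algebra.EssFiniteType ℂ L] (α : K →ₐ[ℂ] L) (l : RZ ℂ K → List (BD ℂ L)) (ρ : ℤ) (a : BD ℂ K)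
    (g : RZ ℂ K → ℂ) (g' : RZ ℂ L → ℂ),
    (∀ W, Dvs W → od W a ≠ 0 → g W ≠ 0 → rn α (l W) = ρ) →
    (∀ V, Dvs V → Dvs (dn α V) → od (dn α V) a ≠ 0 → g' V = cw α (l (dn α V)) V * g (dn α V)) →
    sm (pb α a) g' = ρ * sm a g
  lin : ∀ {K L : Type} [Field K] [Algebra ℂ K] [Field L] [Algebra ℂ L] [Algebra.EssFiniteType ℂ L]
    (α : K →ₐ[ℂ] L) {ι X : Type} [Fintype ι] [Fintype X] {c : ι → L} {u : X → L} {P : ι → X → K}
    {Q : X → ι → K}, (∀ i, c i = ∑ x, α (P i x) * u x) → (∀ x, u x = ∑ i, α (Q x i) * c i) →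
    u ≠ 0 → ∀ m : ℕ, rn α (replicate m (mxf ℂ c)) = rn α (replicate m (mxf ℂ u))

variable {J : Type} [Fintype J] [DecidableEq J] {io : Option J → Type} [∀ j, Fintype (io j)]
  [∀ j, DecidableEq (io j)] {A A' : Type} [Fintype A] [Fintype A']
  {I I' M K L : Type} [Fintype I] [Fintype I'] [Field K] [Algebra ℂ K] [Field L] [Algebra ℂ L]
  {N n : ℕ} {d : J → ℕ} {T : Tgt (bs io) A} {T' : Tgt io A'} {B : Th}
  {r : A → A' → MvPolynomial (Vr io) ℂ}
  {lf : ∀ (I E : Type) [Field E] [Algebra ℂ E], Cfg (bs io) I E → Cfg io I E}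

theorem one_le_mp [Nontrivial (io none)] (n : ℕ) : 1 ≤ mp io n := by
  have := Nat.mul_le_mul (Fintype.one_lt_card (α := io none)) (Nat.le_add_left 1 n)
  rw [mp]
  omega

namespace Sit

variable {ξ : Dat (bs io) d I K} {α : K →ₐ[ℂ] L} {η : Dat io (exd d n) I' L} {g : I → I'}
  (h : Sit N T T' B r lf ξ α η g)
include h

theorem not_on (hO : ¬ ξ.cfg.On T) : ¬ (prC η.cfg).On T := fun h0 =>
  hO ((Cfg.on_map T α).1 (h.res_eq ▸ fun q => h0 (g q)))

variable (hB : B.Ax) [Algebra.EssFiniteType ℂ K] [Algebra.EssFiniteType ℂ L] {m : M → I}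
  {Φ : MFam B (bs io) M}
include hB

open Classical in
theorem vir_eq (h2 : TwoStmt) (hP : PropStmt) (G : Gr T T' d) (hΦ : MCls B T Φ) (hR : Rk T' η.cfg)
    (hO : ¬ ξ.cfg.On T) (hm : 1 ≤ mp io n) (hd : dim ℂ L = dim ℂ K + mp io n) :
    vir B T' η.cfg (g ∘ m) (prF Φ) = sm (pb α (ξ.cfg.dv T)) fun V =>
      if (η.cfg.dv T').val V = 1 then (-1) ^ (mp io n + 1) * B.itg (Rf V)
        (B.c1 ((plV V).res (η.cfg.dv T')) ^ mp io n *
          B.pb (LP.hom (rf α V)) (trm B T ξ.cfg m Φ (dn α V))) else 0 := by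
  have h0 := h.not_on hO
  have h3 := dv_le G h.loc.isR η.cfg_nz h0
  have h4 := Cfg.dv_nonneg T' η.cfg_nz
  have h5 := Sym65.sup_mono h4 h3
  have h6 := h5.trans (sup_sub h.rk1.nz)
  have h7 := h2 B hB ((prC η.cfg).dv T) (η.cfg.dv T') (cpF B T (prC η.cfg)) (RF B η.cfg)
    (evF (prC η.cfg) (g ∘ m) Φ) (h4.trans h3) h4
  rw [inf_eq_right.2 h3] at h7
  have h8 := h7 ((h.rk1.livX hB).mono h6) (LivX.glob hB _) ((liv_evF hΦ h.rk1.nz _).mono h6)
    (fun E _ _ _ p hp => h.rk1.root' hB (h5 hp)) fun E _ _ _ p hp hlt => by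
      have := h.loc.root hB hP G hR h0 (tla_red h.ne p) (Cfg.on_red_of T' p.lnr η.cfg_nz hp) hlt
      rwa [R0_red hB p η.cfg_nz η.cfg_mul] at this
  rw [vir_eq_sm, ← h.dv]
  refine Eq.trans (sm_congr fun W hW h9 => ?_) (h8.trans (Sym65.sm_congr fun V hV h9 => ?_))
  · have := essFT_Rf hW
    have h10 := h.loc.whit hB hP (tla_red h.ne (LP.at W)) (on_at η.cfg_nz h9)
    rw [prC_red, R0_red hB _ η.cfg_nz η.cfg_mul] at h10
    exact congrArg (fun f : (B.H (Rf W))[X] => B.itg _ ((-f.divX).eval _ * _)) h10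
  · exact h.term hB G hΦ hm hd hV (Div.dvs_dn_of_od hV (h.dv ▸ h9))
      (sup_sub h.rk1.nz ((od_eq_zero hV).not.1 h9))

end Sit

theorem coreStmt_of (hV : ∀ B : Th, B.Ax → ValH B) (h2 : TwoStmt) (hD : DescStmt) (hR : RelStmt) :
    CoreStmt := by
  intro B hB J _ _ io _ _ A A' _ _ T T' d G c hn hT
  obtain ⟨lf, hlf⟩ := hD G
  obtain ⟨N₁, h1⟩ := hlf 1
  have hdsc : ∀ N, N₁ ≤ N → Dsc N d T' lf := fun N hN _ _ _ _ _ _ _ _ _ _ n z g z₀ β =>
    h1 n N z g z₀ β hN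
  refine ⟨fun I E _ _ z => Module.finrank E ((lf I E z).V (Pi.single none 1)) - 1, ?_,
    fun n hT' => ?_⟩
  · obtain ⟨n₀, h3⟩ := Emb87.bndStmt G
    obtain ⟨N₂, h4⟩ := exists_bd T'
    refine ⟨N₁ + N₂ + 1, n₀, fun N hN I K _ _ _ ξ hL W hW => ?_⟩
    obtain ⟨n, ζ, hζ⟩ := hL W hW
    exact (Dsc.rank_lift (hdsc N (by omega)) (by omega) hζ).trans_le
      (h3 n N _ (fun a j => (h4 a j).trans (by omega)) hζ.tl hζ.on).1
  obtain ⟨r, hr⟩ := Emb87.exists_isR G.idF
  obtain ⟨N₂, h3⟩ := exists_loc Emb87.exactStmt G hr hT hT'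
  obtain ⟨N₃, h4⟩ := hT.rk
  obtain ⟨N₄, h5⟩ := hT'.rk
  obtain ⟨N₅, h6⟩ := hT.res hB
  obtain ⟨N₆, h7⟩ := hR G hn
  refine ⟨N₁ + N₂ + N₃ + N₄ + N₅ + N₆, fun N hN I I' M K L _ _ _ _ _ _ _ _ ξ α η g m Φ hΦ nx hL hO
    pr ne hd hI => ?_⟩
  obtain ⟨h8, h9, -⟩ := h6 (prD η) g (show (prD (η.res g)).NrmUp N₅ from
    pr ▸ Vb37.nrmUp_map (Vb37.nrmUp_mono nx (by omega)) α)
  rw [show (prD η).res g = ξ.map α from pr, Vb37.cfg_map, prD_cfg] at h8 h9
  have h : Sit N T T' B r lf ξ α η g := ⟨nx, pr, ne, h3 N (by omega), hdsc N (by omega),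
    h4 ξ (Vb37.nrmUp_mono nx (by omega)),
    prD_cfg η ▸ h4 _ (Vb37.nrmUp_mono (nrmUp_prD ne) (by omega)),
    h8.symm.trans (Cfg.dv_map T α _), h9⟩
  have hm := one_le_mp (io := io) n
  classical
  have key : ∀ W : RZ ℂ K, ∃ l : List (BD ℂ L), Dvs W → od W (ξ.cfg.dv T) ≠ 0 →
      (Module.finrank (Rf W) ((lf I (Rf W) (ξ.cfg.red (plV W))).V (Pi.single none 1)) - 1 = n →
        rn α l = rn α (replicate (mp io n) (mxf ℂ (coef η)))) ∧
      ∀ V, Dvs V → dn α V = W → (if (η.cfg.dv T').val V = 1 then (-1) ^ (mp io n + 1) *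
        B.itg (Rf V) (B.c1 ((plV V).res (η.cfg.dv T')) ^ mp io n *
          B.pb (LP.hom (rf α V)) (trm B T ξ.cfg m Φ (dn α V))) else 0) =
        cw α l V * if Module.finrank (Rf W) ((lf I (Rf W) (ξ.cfg.red (plV W))).V
          (Pi.single none 1)) - 1 = n then B.itg (Rf W) (trm B T ξ.cfg m Φ W) else 0 := by
    intro W
    by_cases hW : Dvs W ∧ od W (ξ.cfg.dv T) ≠ 0
    swap
    · exact ⟨[], fun a b => (hW ⟨a, b⟩).elim⟩
    obtain ⟨n', ζ, hζ⟩ := hL W (on_at ξ.cfg_nz ((od_eq_zero hW.1).not.1 hW.2))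
    rw [Dsc.rank_lift h.dsc h.one_le hζ]
    by_cases e : n' = n
    · subst e
      obtain ⟨c, P, Q, c1, c2, c3, c4⟩ := h7 n' N α ξ W ζ η g (by omega) hζ pr hI
        fun h0 => h.not_on hO (on_prC G h0)
      refine ⟨replicate (mp io n') (mxf ℂ c), fun _ _ => ⟨fun _ => (hV B hB).lin α c1 c2
        (fun h0 => c3 0 (by simp [c1, h0])) _, fun V hV' e => ?_⟩⟩
      subst e
      rw [if_pos rfl]
      exact (hV B hB).rel α hd hm _ hV' hW.1 _ c c3 c4
    · refine ⟨[], fun _ _ => ⟨fun h0 => (e h0).elim, fun V hV' e' => ?_⟩⟩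
      have h10 : ∀ p : RZ ℂ L, dn α p = W → (η.cfg.dv T').val p = 1 := fun p hp => by
        subst hp
        by_contra h11
        exact e ((Dsc.rank_lift h.dsc h.one_le hζ).symm.trans (h.rank (p := LP.at p)
          (p₀ := LP.at (dn α p)) (β := rf α p) (on_at η.cfg_nz h11)
          (LP.ext fun x => by simpa [LP.at_toPl] using (rf_r α p x).symm)))
      subst e'
      rw [if_neg e, if_pos (h10 V rfl), (hV B hB).far α hd hm _ hV' hW.1 _ h10, mul_zero, mul_zero]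
  choose l hl using key
  rw [h.vir_eq hB h2 Emb87.propStmt G hΦ (h5 η (Vb37.nrmUp_mono ne (by omega))) hO hm hd]
  refine (hV B hB).sm α l _ _ _ _ (fun W a b e => (hl W a b).1 ?_) fun V a b e =>
    (hl _ b e).2 V a rfl
  by_contra h0
  exact e (if_neg h0)

end Crest.Agent.X262.Emb
end
end

-- ▼ part X262/Emb10/Pt
section

/-!
# Row 262, road B, EMB (helper10): estimates for values of polynomials, forms along a datum
-/

set_option autoImplicit false
set_option linter.unusedSectionVars false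

noncomputable section

namespace Crest.Agent.X262.Emb10

open Crest.Agent.X277 Crest.Agent.X277.BD Polynomial
open Crest.Agent.X262.Hb Crest.Agent.X262.Vb
open Crest.Agent.X262.Bub96 (hv hv_mul hv_add hv_C_mul hv_zero)
open Crest.Agent.X262.Bub96.Tr (dot)
open Crest.Agent.X262.Node22 (scl chr pv_scl chr_ne)

variable {J : Type} [Fintype J] [DecidableEq J] {io : J → Type} [∀ j, Fintype (io j)]
  [∀ j, DecidableEq (io j)] {L : Type} [Field L] [Algebra ℂ L] {V : RZ ℂ L}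
  {y y' : Pnt io L} {γ : V.1.ValueGroup}

theorem v_mul_le {a b : L} (ha : a ∈ V.1) (hb : V.v b ≤ γ) : V.v (a * b) ≤ γ := by
  rw [map_mul]
  exact (mul_le_of_le_one_left' (RZ.le_one_iff.2 ha)).trans hb

theorem v_mul_le' {a b : L} (ha : V.v a ≤ γ) (hb : b ∈ V.1) : V.v (a * b) ≤ γ :=
  mul_comm b a ▸ v_mul_le hb ha

theorem v_add_le {a b : L} (ha : V.v a ≤ γ) (hb : V.v b ≤ γ) : V.v (a + b) ≤ γ :=
  (V.v.map_add _ _).trans (max_le ha hb)

theorem v_sub_le {a b : L} (ha : V.v a ≤ γ) (hb : V.v b ≤ γ) : V.v (a - b) ≤ γ :=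
  (V.v.map_sub _ _).trans (max_le ha hb)

/-- polynomials are Lipschitz on integral points -/
theorem v_pv_sub (h : ∀ j i, y j i ∈ V.1) (h' : ∀ j i, y' j i ∈ V.1)
    (hd : ∀ j i, V.v (y j i - y' j i) ≤ γ) (q : MvPolynomial (Vr io) ℂ) :
    V.v (pv y q - pv y' q) ≤ γ := by
  induction q using MvPolynomial.induction_on with
  | C a => simp [pv]
  | add f g hf hg =>
    rw [show pv y (f + g) - pv y' (f + g) = (pv y f - pv y' f) + (pv y g - pv y' g) by
      simp only [pv, map_add]; ring]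
    exact v_add_le hf hg
  | mul_X f v hf =>
    rw [show pv y (f * MvPolynomial.X v) - pv y' (f * MvPolynomial.X v) =
      (pv y f - pv y' f) * y v.1 v.2 + pv y' f * (y v.1 v.2 - y' v.1 v.2) by
        simp only [pv, map_mul, MvPolynomial.aeval_X]; ring]
    exact v_add_le (v_mul_le' hf (h _ _)) (v_mul_le (pv_mem h' f) (hd _ _))

/-- members of the ideal are bounded by the generators -/
theorem v_pv_ideal {A : Type} {F : A → MvPolynomial (Vr io) ℂ} (h : ∀ j i, y j i ∈ V.1)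
    (hF : ∀ b, V.v (pv y (F b)) ≤ γ) {q : MvPolynomial (Vr io) ℂ}
    (hq : q ∈ Ideal.span (Set.range F)) : V.v (pv y q) ≤ γ := by
  induction hq using Submodule.span_induction with
  | mem x hx => obtain ⟨b, rfl⟩ := hx; exact hF b
  | zero => simp [pv]
  | add f g _ _ hf hg => rw [pv, map_add]; exact v_add_le hf hg
  | smul f g _ hg => rw [pv, smul_eq_mul, map_mul]; exact v_mul_le (pv_mem h f) hg

/-- sizes are values at primitive coordinates -/
theorem v_pv_prim {c : J → L} (hy : NZ y) (hc : ∀ j, c j ≠ 0) (hp : Prim V (scl c y))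
    {q : MvPolynomial (Vr io) ℂ} {κ : J → ℕ} (hq : MH q κ) :
    V.v (pv (scl c y) q) ≤ γ ↔ V.v (pv y q) ≤ γ * (lw κ y).val V := by
  have h1 := hp.val_lw κ
  rw [lw_scl hy hc, val_add, val_pr (chr_ne hc κ)] at h1
  rw [pv_scl hq, map_mul, eq_inv_of_mul_eq_one_right h1, mul_comm, ← div_eq_mul_inv,
    div_le_iff₀ (val_pos _ _)]

theorem dot_add' (κ κ' d : J → ℕ) : dot (κ + κ') d = dot κ d + dot κ' d := by
  simp only [dot, Pi.add_apply, add_mul, Finset.sum_add_distrib]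

theorem dot_single (j : J) (d : J → ℕ) : dot (Pi.single j 1) d = d j := by
  rw [dot, Finset.sum_eq_single j (fun j' _ h => by simp [h]) (by simp)]
  simp

/-- the binary form given by a multihomogeneous polynomial along a datum -/
theorem exists_form {d : J → ℕ} {I : Type} (ξ : Dat io d I L) {q : MvPolynomial (Vr io) ℂ}
    {κ : J → ℕ} (hq : MH q κ) :
    ∃ σ : L[X], σ.natDegree ≤ dot κ d ∧ ∀ t, hv (dot κ d) σ t = pv (ξ.pt t) q := by
  have one : ∃ σ : L[X], σ.natDegree ≤ dot 0 d ∧ ∀ t, hv (dot 0 d) σ t = 1 :=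
    ⟨1, by simp, fun t => by rcases t with _ | t <;> simp [dot]⟩
  have mul : ∀ {κ κ' : J → ℕ} {u u' : Option L → L},
      (∃ σ : L[X], σ.natDegree ≤ dot κ d ∧ ∀ t, hv (dot κ d) σ t = u t) →
      (∃ σ : L[X], σ.natDegree ≤ dot κ' d ∧ ∀ t, hv (dot κ' d) σ t = u' t) →
      ∃ σ : L[X], σ.natDegree ≤ dot (κ + κ') d ∧ ∀ t, hv (dot (κ + κ') d) σ t = u t * u' t := by
    rintro κ κ' u u' ⟨σ, h1, h2⟩ ⟨σ', h1', h2'⟩
    rw [dot_add']
    exact ⟨σ * σ', natDegree_mul_le.trans (add_le_add h1 h1'), fun t => by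
      rw [hv_mul h1 h1', h2, h2']⟩
  have key : ∀ e : Vr io →₀ ℕ, ∃ σ : L[X],
      σ.natDegree ≤ dot (Finsupp.weight (fun v : Vr io => (Pi.single v.1 1 : J → ℕ)) e) d ∧
      ∀ t, hv (dot (Finsupp.weight (fun v : Vr io => (Pi.single v.1 1 : J → ℕ)) e) d) σ t =
        e.prod fun v k => ξ.pt t v.1 v.2 ^ k := by
    intro e
    induction e using Finsupp.induction_linear with
    | zero => simpa only [Finsupp.prod_zero_index, map_zero] using one
    | add a b ha hb =>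
      rw [map_add]
      obtain ⟨σ, h1, h2⟩ := mul ha hb
      exact ⟨σ, h1, fun t => (h2 t).trans
        (Finsupp.prod_add_index' (by simp) (by simp [pow_add])).symm⟩
    | single v k =>
      rw [Finsupp.weight_single]
      simp only [Finsupp.prod_single_index (h := fun (v : Vr io) k => ξ.pt _ v.1 v.2 ^ k)
        (pow_zero _)]
      induction k with
      | zero => simpa only [zero_nsmul, pow_zero] using one
      | succ k ih =>
        rw [succ_nsmul]
        simp only [pow_succ]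
        exact mul ih ⟨ξ.f v.1 v.2, (dot_single v.1 d).symm ▸ ξ.cp.1 _ _, fun t => by
          rw [dot_single]; rfl⟩
  unfold MH at hq
  induction hq using MvPolynomial.IsWeightedHomogeneous.induction_on with
  | zero => exact ⟨0, by simp, fun t => by simp [pv, hv_zero]⟩
  | add f g _ _ hf hg =>
    obtain ⟨σ, h1, h2⟩ := hf
    obtain ⟨σ', h1', h2'⟩ := hg
    exact ⟨σ + σ', natDegree_add_le_of_degree_le h1 h1', fun t => by
      rw [hv_add, h2, h2', pv, pv, pv, map_add]⟩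
  | monomial e r hr =>
    obtain ⟨σ, h1, h2⟩ := hr ▸ key e
    exact ⟨C (algebraMap ℂ L r) * σ, (natDegree_C_mul_le _ _).trans h1, fun t => by
      rw [hv_C_mul, h2, pv, MvPolynomial.aeval_monomial]⟩

end Crest.Agent.X262.Emb10
end
end

-- ▼ part X262/Emb10/Frm
section

/-!
# Row 262, road B, EMB (helper10): integral frames of the forms of a factor, coordinates
-/

set_option autoImplicit false
set_option linter.unusedSectionVars false

noncomputable section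

namespace Crest.Agent.X262.Emb10

open Crest.Agent.X277 Crest.Agent.X277.BD Polynomial
open Crest.Agent.X262.Hb Crest.Agent.X262.Vb
open Crest.Agent.X262.Bub96 (hv hv_mul hv_add hv_C_mul hv_zero hv_sum)
open Crest.Agent.X262.Bub96.Tr (dot)
open Crest.Agent.X262.Node22 (scl chr pv_scl chr_ne)

variable {J : Type} [Fintype J] [DecidableEq J] {io : J → Type} [∀ j, Fintype (io j)]
  [∀ j, DecidableEq (io j)] {K L : Type} [Field K] [Algebra ℂ K] [Field L] [Algebra ℂ L]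
  {d : J → ℕ} {I : Type} [Fintype I]

theorem chr_single (c : J → K) (j : J) : chr c (Pi.single j 1) = c j := by
  rw [chr, Finset.prod_eq_single j (fun j' _ hj => by simp [hj]) (by simp)]
  simp

theorem mem_gau_V (ζ : Dat io d I K) (c : I → J → K) (j : J) {w : I → K} :
    w ∈ (ζ.cfg.gau c).V (Pi.single j 1) ↔
      ∃ σ : K[X], σ.natDegree ≤ d j ∧ ∀ q, c q j * hv (d j) σ (ζ.x q) = w q := by
  rw [Cfg.gau_V, mem_sclS]
  simp only [chr_single]
  change (∃ u ∈ (degreeLE K (dot (Pi.single j 1) d : ℕ)).map (ζ.evl (dot (Pi.single j 1) d)), _) ↔ _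
  rw [dot_single]
  constructor
  · rintro ⟨_, ⟨σ, h1, rfl⟩, rfl⟩
    exact ⟨σ, natDegree_le_of_degree_le (mem_degreeLE.1 h1), fun q => rfl⟩
  · rintro ⟨σ, h1, h2⟩
    exact ⟨_, ⟨σ, mem_degreeLE.2 (degree_le_of_natDegree_le h1), rfl⟩, funext h2⟩

open Classical in
/-- an integral frame -/
structure Frame (ζ : Dat io d I K) (W : RZ ℂ K) (j : J) (S : Finset I) (τ : I → K[X]) : Prop where
  card : S.card = d j + 1
  deg : ∀ s, (τ s).natDegree ≤ d j
  int : ∀ s ∈ S, ∀ q, ζ.cfg.nrm W q j * hv (d j) (τ s) (ζ.x q) ∈ W.1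
  piv : ∀ s ∈ S, ∀ t ∈ S, ζ.cfg.nrm W t j * hv (d j) (τ s) (ζ.x t) = if s = t then 1 else 0
  exp : ∀ σ : K[X], σ.natDegree ≤ d j →
    σ = ∑ s ∈ S, C (ζ.cfg.nrm W s j * hv (d j) σ (ζ.x s)) * τ s

theorem exists_frame (ζ : Dat io d I K) (W : RZ ℂ K) (j : J)
    (h : Module.finrank K (ζ.cfg.V (Pi.single j 1)) = d j + 1) :
    ∃ (S : Finset I) (τ : I → K[X]), Frame ζ W j S τ := by
  classical
  obtain ⟨S, u, hE, hu⟩ := exists_ech W ((ζ.cfg.gau (ζ.cfg.nrm W)).V (Pi.single j 1))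
  have h1 : ∀ s, ∃ σ : K[X], σ.natDegree ≤ d j ∧
      (s ∈ S → ∀ q, ζ.cfg.nrm W q j * hv (d j) σ (ζ.x q) = u s q) := fun s => by
    by_cases hs : s ∈ S
    · obtain ⟨σ, h2, h3⟩ := (mem_gau_V ζ _ j).1 (hE.mem s hs)
      exact ⟨σ, h2, fun _ => h3⟩
    · exact ⟨0, by simp, fun h => (hs h).elim⟩
  choose τ h2 h3 using h1
  have inj : ∀ σ : K[X], σ.natDegree ≤ d j → (∀ q, hv (d j) σ (ζ.x q) = 0) → σ = 0 := by
    intro σ hσ h0
    have : Module.Finite K (degreeLE K (d j : ℕ)) := by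
      rw [← degreeLT_succ_eq_degreeLE]
      exact Module.Finite.equiv (degreeLTEquiv K _).symm
    refine Bub96.inj_of_finrank (ζ.evl (d j)) (degreeLE K (d j : ℕ)) ?_ σ
      (mem_degreeLE.2 (degree_le_of_natDegree_le hσ)) (funext h0)
    change Module.finrank K ((degreeLE K (dot (Pi.single j 1) d : ℕ)).map
      (ζ.evl (dot (Pi.single j 1) d))) = _ at h
    rw [dot_single] at h
    rw [h, ← degreeLT_succ_eq_degreeLE, (degreeLTEquiv K _).finrank_eq, Module.finrank_fin_fun]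
  refine ⟨S, τ, ?_, h2, fun s hs q => h3 s hs q ▸ hu s hs q, fun s hs t ht => ?_, fun σ hσ => ?_⟩
  · rw [← hE.finrank_eq, Cfg.gau_V, finrank_sclS fun q => chr_ne (Cfg.nrm_ne W _ q) _, h]
  · rw [h3 s hs, hE.piv s hs t ht]
  · have h4 := hE.exp _ ((mem_gau_V ζ _ j).2 ⟨σ, hσ, fun _ => rfl⟩)
    refine sub_eq_zero.1 (inj _ ((natDegree_sub_le _ _).trans (max_le hσ
      (natDegree_sum_le_of_forall_le _ _ fun s _ => (natDegree_C_mul_le _ _).trans (h2 s))))
      fun q => mul_left_cancel₀ (Cfg.nrm_ne W ζ.cfg q j) ?_)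
    rw [sub_eq_add_neg, hv_add, ← neg_one_mul, ← C_1, ← C_neg, hv_C_mul, hv_sum, mul_add, h4 q,
      neg_one_mul, mul_neg, Finset.mul_sum, mul_zero, add_neg_eq_zero]
    exact Finset.sum_congr rfl fun s hs => by rw [hv_C_mul, ← h3 s hs q]; ring

theorem hv_eq_sum {n : ℕ} {σ : L[X]} (hσ : σ.natDegree ≤ n) (α : K →ₐ[ℂ] L) (t : Option K) :
    hv n σ (t.map α) = ∑ l : Fin (n + 1), α (hv n (X ^ (l : ℕ)) t) * σ.coeff l := by
  conv_lhs => rw [as_sum_range_C_mul_X_pow' σ (Nat.lt_succ_of_le hσ), Finset.sum_range, hv_sum]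
  refine Finset.sum_congr rfl fun l _ => ?_
  have := Bub96.hv_map (α : K →+* L) n (X ^ (l : ℕ)) t
  rw [Polynomial.map_pow, map_X] at this
  rw [hv_C_mul, mul_comm]
  exact congrArg (· * _) this

/-- the expansion holds after extension of the field -/
theorem Frame.exp_map {ζ : Dat io d I K} {W : RZ ℂ K} {j : J} {S : Finset I} {τ : I → K[X]}
    (h : Frame ζ W j S τ) (α : K →ₐ[ℂ] L) {σ : L[X]} (hσ : σ.natDegree ≤ d j) :
    σ = ∑ s ∈ S, C (α (ζ.cfg.nrm W s j) * hv (d j) σ ((ζ.x s).map α)) *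
      (τ s).map (α : K →+* L) := by
  simp only [hv_eq_sum hσ α, Finset.mul_sum, map_sum, Finset.sum_mul]
  rw [Finset.sum_comm]
  conv_lhs => rw [as_sum_range_C_mul_X_pow' σ (Nat.lt_succ_of_le hσ), Finset.sum_range]
  refine Finset.sum_congr rfl fun l _ => ?_
  have h1 := congrArg (Polynomial.map (α : K →+* L))
    (h.exp (X ^ (l : ℕ)) ((natDegree_X_pow_le _).trans (Nat.le_of_lt_succ l.2)))
  rw [Polynomial.map_pow, map_X, Polynomial.map_sum] at h1
  rw [h1, Finset.mul_sum]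
  refine Finset.sum_congr rfl fun s _ => ?_
  rw [Polynomial.map_mul, map_C, ← mul_assoc, ← C_mul, map_mul (α : K →+* L)]
  congr 2
  simp only [RingHom.coe_coe]
  ring

end Crest.Agent.X262.Emb10
end
end

-- ▼ part X262/Emb10/Rel

/-!
# Row 262, road B, EMB (helper10): the divisor of the new equations over a lift
-/

set_option autoImplicit false
set_option linter.unusedSectionVars false

noncomputable section

namespace Crest.Agent.X262.Emb10

open Crest.Agent.X277 Crest.Agent.X277.BD Crest.Agent.X277.BD.Cyc Polynomial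
open Crest.Agent.X262.Hb Crest.Agent.X262.Vb Crest.Agent.X262.Emb
open Crest.Agent.X262.Bub96 (hv hv_mul hv_add hv_C_mul hv_zero hv_sum)
open Crest.Agent.X262.Bub96.Tr (dot)
open Crest.Agent.X262.Node22 (scl chr pv_scl chr_ne)
open Crest.Agent.X262.Val40 (dn rf rf_r v_dn_lt_one v_dn_eq_one mem_dn)
open Crest.Agent.X262.Tree87 (TL)

variable {J : Type} [Fintype J] [DecidableEq J] {io : Option J → Type} [∀ j, Fintype (io j)]
  [∀ j, DecidableEq (io j)] {A A' : Type} [Fintype A] [Fintype A'] {T : Tgt (bs io) A}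
  {T' : Tgt io A'} {d : J → ℕ} {K L : Type} [Field K] [Algebra ℂ K] [Field L] [Algebra ℂ L]

theorem pv_upq (y : Pnt io L) (q : MvPolynomial (Vr (bs io)) ℂ) : pv y (upq q) = pv (prP y) q :=
  MvPolynomial.aeval_rename _ _ _

/-- two points near the graph with the same old coordinates are near -/
theorem wedge_le (G : Gr T T' d) {V : RZ ℂ L} {γ : V.1.ValueGroup} {y y' : Pnt io L}
    (h : ∀ j i, y j i ∈ V.1) (h' : ∀ j i, y' j i ∈ V.1) (e : prP y = prP y') {l : G.L}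
    {a₁ : io none} (hu : V.v (pv (prP y') (G.q l a₁)) = 1) (hF : ∀ b, V.v (pv y (T'.F b)) ≤ γ)
    (hF' : ∀ b, V.v (pv y' (T'.F b)) ≤ γ) (a b : io none) :
    V.v (y none a * y' none b - y none b * y' none a) ≤ γ := by
  have h1 : ∀ a b, V.v (y none a * pv (prP y') (G.q l b) - y none b * pv (prP y') (G.q l a)) ≤ γ :=
    fun a b => by
      have := v_pv_ideal h hF (G.idq l a b)
      rwa [pv, map_sub, map_mul, map_mul, MvPolynomial.aeval_X, MvPolynomial.aeval_X, ← pv, ← pv,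
        pv_upq, pv_upq, e] at this
  have h2 : ∀ a b, V.v (y' none a * pv (prP y') (G.q l b) - y' none b * pv (prP y') (G.q l a)) ≤ γ :=
    fun a b => by
      have := v_pv_ideal h' hF' (G.idq l a b)
      rwa [pv, map_sub, map_mul, map_mul, MvPolynomial.aeval_X, MvPolynomial.aeval_X, ← pv, ← pv,
        pv_upq, pv_upq] at this
  have h3 := v_add_le (v_sub_le (v_mul_le (h' none b) (h1 a a₁)) (v_mul_le (h' none a) (h1 b a₁)))
    (v_mul_le (h none a₁) (h2 b a))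
  rw [← one_mul (V.v _), ← hu, ← map_mul]
  convert h3 using 2
  ring

variable {n N : ℕ} {I I' : Type} [Fintype I] [Fintype I'] {α : K →ₐ[ℂ] L}
  {ξ : Dat (bs io) d I K} {ζ : Dat io (exd d n) I K} {η : Dat io (exd d n) I' L} {g : I → I'}
  {p : RZ ℂ L}

theorem pt_map' (ζ : Dat io (exd d n) I K) (α : K →ₐ[ℂ] L) (q : I) :
    (ζ.map α).pt ((ζ.map α).x q) = mapP α (ζ.pt (ζ.x q)) :=
  Bub96.pt_map ζ α (ζ.x q)

/-- the normalised coordinates of the lift -/
def hat (ζ : Dat io (exd d n) I K) (W : RZ ℂ K) (q : I) : Pnt io K :=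
  (ζ.cfg.gau (ζ.cfg.nrm W)).y q

theorem nz_cfg {J : Type} [Fintype J] [DecidableEq J] {io : J → Type} [∀ j, Fintype (io j)]
    [∀ j, DecidableEq (io j)] {d : J → ℕ} (ζ : Dat io d I K) : ζ.cfg.NZ :=
  fun _ => Bub96.nz_pt ζ _

theorem prim_hat (ζ : Dat io (exd d n) I K) (W : RZ ℂ K) (q : I) : Prim W (hat ζ W q) :=
  Cfg.pr_nrm (nz_cfg ζ) W q

theorem prim_map {y : Pnt io K} (h : Prim (dn α p) y) : Prim p (mapP α y) :=
  fun j => ⟨fun i => mem_dn.1 ((h j).1 i), (h j).2.imp fun _ hi => v_dn_eq_one.1 hi⟩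

theorem mapP_hat (ζ : Dat io (exd d n) I K) (W : RZ ℂ K) (q : I) :
    mapP α (hat ζ W q) = scl (fun j => α (ζ.cfg.nrm W q j)) ((ζ.map α).pt ((ζ.map α).x q)) := by
  rw [pt_map']
  funext j i
  exact map_mul α _ _

theorem nrm_ne' (ζ : Dat io (exd d n) I K) (W : RZ ℂ K) (q : I) (j : Option J) :
    α (ζ.cfg.nrm W q j) ≠ 0 := (map_ne_zero α).2 (Cfg.nrm_ne W _ q j)

/-- a bound at the normalised points is a bound everywhere -/
theorem bound (h : LiftAt T' N ξ (dn α p) ζ) {κ : Option J → ℕ} (hκ : ∀ j, κ j ≤ N) {σ : L[X]}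
    (hσ : σ.natDegree ≤ dot κ (exd d n)) {μ : L} (hμ : μ ≠ 0)
    (hb : ∀ q, p.v (chr (fun j => α (ζ.cfg.nrm (dn α p) q j)) κ *
      hv (dot κ (exd d n)) σ ((ζ.map α).x q)) ≤ p.v μ) (t : Option L) :
    p.v (hv (dot κ (exd d n)) σ t) ≤ p.v μ * (lw κ ((ζ.map α).pt t)).val p := by
  have h1 := h.nrm L α p rfl κ hκ (C μ⁻¹ * σ) ((natDegree_C_mul_le _ _).trans hσ) (fun q => by
    have h2 := (prim_map (prim_hat ζ (dn α p) q)).val_lw κ
    rw [mapP_hat, lw_scl (Bub96.nz_pt _ _) (nrm_ne' ζ _ q), val_add,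
      val_pr (chr_ne (nrm_ne' ζ _ q) κ)] at h2
    have h3 := hb q
    rw [map_mul, eq_inv_of_mul_eq_one_right h2, mul_comm, ← div_eq_mul_inv,
      div_le_iff₀ (val_pos _ _)] at h3
    rw [hv_C_mul, map_mul, map_inv₀, inv_mul_le_iff₀ (RZ.pos hμ)]
    exact h3) t
  rwa [hv_C_mul, map_mul, map_inv₀, inv_mul_le_iff₀ (RZ.pos hμ)] at h1

/-- the lift is near the graph -/
theorem exists_lam {W : RZ ℂ K} (h : (ζ.cfg.red (plV W)).On T') :
    ∃ lam : K, W.v lam < 1 ∧ ∀ q b, W.v (pv (hat ζ W q) (T'.F b)) ≤ W.v lam := by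
  have h1 : ∀ q b, W.v (pv (hat ζ W q) (T'.F b)) < 1 := fun q b => by
    have h2 := fun j => (prim_hat ζ W q j).1
    exact (Pl.r_eq_zero (p := plV W) (pv_mem h2 _)).1 ((r_pv (lnr_plV W) h2 _).trans (h q b))
  rcases (Finset.univ : Finset (I × A')).eq_empty_or_nonempty with h0 | h0
  · exact ⟨0, by simp, fun q b => absurd (Finset.mem_univ (q, b)) (h0 ▸ Finset.notMem_empty _)⟩
  · obtain ⟨x, -, hx⟩ := Finset.exists_max_image _
      (fun x : I × A' => W.v (pv (hat ζ W x.1) (T'.F x.2))) h0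
    exact ⟨_, h1 x.1 x.2, fun q b => hx (q, b) (Finset.mem_univ _)⟩

theorem near (h : LiftAt T' N ξ (dn α p) ζ) (hk : ∀ b j, T'.k b j ≤ N) {μ : L} (hμ : μ ≠ 0)
    (hb : ∀ q b, p.v (α (pv (hat ζ (dn α p) q) (T'.F b))) ≤ p.v μ) (t : Option L) (b : A') :
    p.v (pv ((ζ.map α).pt t) (T'.F b)) ≤ p.v μ * (lw (T'.k b) ((ζ.map α).pt t)).val p := by
  obtain ⟨σ, h1, h2⟩ := exists_form (ζ.map α) (T'.hom b)
  rw [← h2]
  refine bound h (hk b) h1 hμ (fun q => ?_) t
  rw [h2, ← pv_scl (T'.hom b), ← mapP_hat, pv_map]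
  exact hb q b

theorem old_eq (h : prD ζ = ξ) (he : prD (η.res g) = ξ.map α) (t : Option L) (j : J) :
    η.pt t (some j) = (ζ.map α).pt t (some j) := by
  subst h
  have := congrArg (fun x => x.f j) he
  funext i
  exact congrArg (fun f => hv (d j) (f i) t) this

theorem x_eq (h : prD ζ = ξ) (he : prD (η.res g) = ξ.map α) (q : I) :
    η.x (g q) = (ζ.map α).x q := by
  subst h
  exact congrArg (fun x => x.x q) he

/-- upper bound -/
theorem upper (h : LiftAt T' N ξ (dn α p) ζ) (hk : ∀ b j, T'.k b j ≤ N)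
    (he : prD (η.res g) = ξ.map α) {μ c₀ : L} (hμ : μ ≠ 0) (hμ1 : p.v μ < 1) (hc : c₀ ≠ 0)
    (hb : ∀ q b, p.v (α (pv (hat ζ (dn α p) q) (T'.F b))) ≤ p.v μ)
    (hw : ∀ t a, p.v (η.pt t none a - c₀ * (ζ.map α).pt t none a) ≤
      p.v (μ * c₀) * (ln ((ζ.map α).pt t) none).val p) :
    nm (η.cfg.ea T') p (η.cfg.sv T') ≤ p.v μ := by
  refine nm_le.2 fun x => ?_
  obtain ⟨b, q⟩ := x
  change p.v (pv (η.pt (η.x q)) (T'.F b)) ≤ p.v μ * (lw (T'.k b) (η.pt (η.x q))).val p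
  generalize η.x q = t
  have n1 := Bub96.nz_pt (ζ.map α) t
  have n2 := Bub96.nz_pt η t
  let c : Option J → L := fun j => ((ln ((ζ.map α).pt t) j).gen p)⁻¹
  have hc0 : ∀ j, c j ≠ 0 := fun j => inv_ne_zero (gen_ne _ _)
  have hcv : ∀ j, p.v (c j) = ((ln ((ζ.map α).pt t) j).val p)⁻¹ := fun j => by
    rw [map_inv₀, v_gen]
  have hp : Prim p (scl c ((ζ.map α).pt t)) := prim_scl n1 hcv
  let c' : Option J → L := fun j => j.elim (c none / c₀) fun j => c (some j)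
  have hc0' : ∀ j, c' j ≠ 0 := fun j => by
    rcases j with _ | j
    · exact div_ne_zero (hc0 _) hc
    · exact hc0 _
  have hd : ∀ j i, p.v (scl c' (η.pt t) j i - scl c ((ζ.map α).pt t) j i) ≤ p.v μ := by
    rintro (_ | j) i
    · have : scl c' (η.pt t) none i - scl c ((ζ.map α).pt t) none i =
          c none / c₀ * (η.pt t none i - c₀ * (ζ.map α).pt t none i) := by
        change c none / c₀ * _ - c none * _ = _
        field_simp
      rw [this, map_mul, map_div₀, hcv, div_mul_eq_mul_div, div_le_iff₀ (RZ.pos hc),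
        inv_mul_le_iff₀ (val_pos _ _), ← map_mul]
      exact (hw t i).trans_eq (mul_comm _ _)
    · change p.v (c (some j) * η.pt t (some j) i - c (some j) * _) ≤ _
      rw [old_eq h.prj he, sub_self, map_zero]
      exact zero_le
  have hi : ∀ j i, scl c' (η.pt t) j i ∈ p.1 := fun j i => by
    rw [← sub_add_cancel (scl c' (η.pt t) j i) (scl c ((ζ.map α).pt t) j i)]
    exact add_mem (RZ.le_one_iff.1 ((hd j i).trans hμ1.le)) ((hp j).1 i)
  have hp' : Prim p (scl c' (η.pt t)) := fun j => ⟨hi j, (hp j).2.imp fun i h1 => by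
    rw [← sub_add_cancel (scl c' (η.pt t) j i) (scl c ((ζ.map α).pt t) j i),
      Valuation.map_add_eq_of_lt_right _ (h1 ▸ (hd j i).trans_lt hμ1), h1]⟩
  rw [← v_pv_prim n2 hc0' hp' (T'.hom b),
    ← sub_add_cancel (pv (scl c' (η.pt t)) (T'.F b)) (pv (scl c ((ζ.map α).pt t)) (T'.F b))]
  exact v_add_le (v_pv_sub hi (fun j => (hp j).1) hd _)
    ((v_pv_prim n1 hc0 hp (T'.hom b)).2 (near h hk hμ hb t b))

/-- lower bound -/
theorem lower (G : Gr T T' d) (h : prD ζ = ξ) (he : prD (η.res g) = ξ.map α) {q : I} {l : G.L}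
    {a₁ : io none} (hu : (dn α p).v (pv (prP (hat ζ (dn α p) q)) (G.q l a₁)) = 1)
    {γ m₀ : p.1.ValueGroup} (hb : ∀ b, p.v (α (pv (hat ζ (dn α p) q) (T'.F b))) ≤ γ)
    (hM : nm (η.cfg.ea T') p (η.cfg.sv T') ≤ γ)
    (hm : ∀ a, p.v (α (ζ.cfg.nrm (dn α p) q none) * η.pt (η.x (g q)) none a) ≤ m₀) (a b : io none) :
    p.v (α (ζ.cfg.nrm (dn α p) q none) * η.pt (η.x (g q)) none a * α (hat ζ (dn α p) q none b) -
      α (ζ.cfg.nrm (dn α p) q none) * η.pt (η.x (g q)) none b * α (hat ζ (dn α p) q none a)) ≤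
      γ * m₀ := by
  have n2 := Bub96.nz_pt η (η.x (g q))
  have hp := prim_map (prim_hat ζ (dn α p) q)
  let ρ : L := ((ln (η.pt (η.x (g q))) none).gen p)⁻¹
  have hρ : ρ ≠ 0 := inv_ne_zero (gen_ne _ _)
  let c' : Option J → L := fun j => j.elim ρ fun j => α (ζ.cfg.nrm (dn α p) q (some j))
  have hc0' : ∀ j, c' j ≠ 0 := fun j => by
    rcases j with _ | j
    · exact hρ
    · exact nrm_ne' ζ _ q _
  have e1 : ∀ j, scl c' (η.pt (η.x (g q))) (some j) = mapP α (hat ζ (dn α p) q) (some j) :=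
    fun j => by
      rw [mapP_hat]
      funext i
      change c' (some j) * η.pt (η.x (g q)) (some j) i = _
      rw [old_eq h he, x_eq h he]
      rfl
  have hp' : Prim p (scl c' (η.pt (η.x (g q)))) := by
    rintro (_ | j)
    · exact prim_scl n2 (c := fun j => ((ln (η.pt (η.x (g q))) j).gen p)⁻¹)
        (fun j => by rw [map_inv₀, v_gen]) none
    · rw [e1]
      exact hp (some j)
  have h1 := wedge_le G (fun j => (hp' j).1) (fun j => (hp j).1) (_root_.funext e1) (l := l)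
    (a₁ := a₁) (by
      rw [show prP (mapP α (hat ζ (dn α p) q)) = mapP α (prP (hat ζ (dn α p) q)) from rfl, pv_map]
      exact v_dn_eq_one.1 hu)
    (fun b => (v_pv_prim n2 hc0' hp' (T'.hom b)).2 (nm_le.1 hM (b, g q)))
    (fun b => by rw [pv_map]; exact hb b) a b
  obtain ⟨i, hi⟩ := (hp' none).2
  have h2 : p.v (α (ζ.cfg.nrm (dn α p) q none) / ρ) ≤ m₀ := by
    have := hm i
    rwa [show α (ζ.cfg.nrm (dn α p) q none) * η.pt (η.x (g q)) none i =
      α (ζ.cfg.nrm (dn α p) q none) / ρ * scl c' (η.pt (η.x (g q))) none i by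
        change _ = _ * (ρ * _)
        field_simp, map_mul, hi, mul_one] at this
  refine le_of_eq_of_le ?_ (mul_le_mul' h1 h2)
  rw [← map_mul]
  congr 1
  change _ = (ρ * _ * α _ - ρ * _ * α _) * _
  field_simp

/-- the two estimates give the value -/
theorem final {Γ : Type*} [LinearOrderedCommGroupWithZero Γ] {M m₀ m₁ la : Γ} (h0 : 0 < m₁)
    (h1 : m₁ ≤ m₀) (hM : M ≤ 1) (hla : la < 1) (lo : m₁ ≤ max M la * m₀)
    (up : m₁ < m₀ → M ≤ max la (m₁ / m₀)) :
    (M⁻¹ = 1 ↔ m₀ / m₁ = 1) ∧ (la * (m₀ / m₁) < 1 → M⁻¹ = m₀ / m₁) := by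
  have h2 : 0 < m₀ := h0.trans_le h1
  have lo' : la * m₀ < m₁ → m₁ ≤ M * m₀ := fun h => by
    rcases le_total M la with h3 | h3
    · rw [max_eq_right h3] at lo
      exact absurd h lo.not_gt
    · rwa [max_eq_left h3] at lo
  refine ⟨⟨fun h => ?_, fun h => ?_⟩, fun h => ?_⟩
  · by_contra h3
    have h4 : m₁ < m₀ := h1.lt_of_ne fun h4 => h3 (by rw [h4, div_self h2.ne'])
    rw [inv_eq_one] at h
    exact absurd ((up h4).trans_lt (max_lt hla ((div_lt_one₀ h2).2 h4))) (h ▸ lt_irrefl _)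
  · rw [div_eq_one_iff_eq h0.ne'] at h
    subst h
    rw [inv_eq_one]
    exact hM.antisymm ((le_mul_iff_one_le_left h0).1 (lo' (mul_lt_of_lt_one_left h0 hla)))
  · rw [← mul_div_assoc, div_lt_one₀ h0] at h
    rw [← inv_div m₁ m₀, inv_inj]
    refine le_antisymm ?_ ((div_le_iff₀ h2).2 (lo' h))
    rcases h1.eq_or_lt with h3 | h3
    · rwa [h3, div_self h2.ne']
    · exact (up h3).trans (max_le ((le_div_iff₀ h2).2 h.le) le_rfl)

/-- the estimates at one valuation -/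
theorem at_p (hP : PropStmt) (G : Gr T T' d) (h : LiftAt T' N ξ (dn α p) ζ)
    (hk : ∀ b j, T'.k b j ≤ N) (h2 : 2 ≤ N) (he : prD (η.res g) = ξ.map α)
    (hch : ∀ q, ∃ l a, pv (prP ((ζ.cfg.red (plV (dn α p))).y q)) (G.q l a) ≠ 0)
    {S : Finset I} {τ : I → K[X]} (hF : Frame ζ (dn α p) none S τ) {cc : io none × S → L}
    {c₀ : L} (hc₀ : c₀ ≠ 0) (hf : ∀ a, η.f none a = C c₀ * (ζ.f none a).map (α : K →+* L) +
      ∑ s : S, C (cc (a, s)) * (τ s).map (α : K →+* L)) {x₀ x₁ : io none × S}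
    (h0 : cc x₀ = 0) (hγ : (dn α p).v (hat ζ (dn α p) x₀.2 none x₀.1) = 1) (h1 : cc x₁ ≠ 0)
    (hm : ∀ x, p.v (cc x) ≤ p.v (cc x₁)) {lam : K} (hl : (dn α p).v lam < 1)
    (hb : ∀ q b, (dn α p).v (pv (hat ζ (dn α p) q) (T'.F b)) ≤ (dn α p).v lam) :
    p.v (cc x₁) ≤ max (nm (η.cfg.ea T') p (η.cfg.sv T')) (p.v (α lam)) *
        max (p.v c₀) (p.v (cc x₁)) ∧
      (p.v (cc x₁) < p.v c₀ → nm (η.cfg.ea T') p (η.cfg.sv T') ≤
        max (p.v (α lam)) (p.v (cc x₁) / p.v c₀)) := by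
  classical
  have hb' : ∀ q b, p.v (α (pv (hat ζ (dn α p) q) (T'.F b))) ≤ p.v (α lam) :=
    fun q b => Val40.v_dn_le.1 (hb q b)
  let u : I → I → K := fun s q => ζ.cfg.nrm (dn α p) q none * hv n (τ s) (ζ.x q)
  have hu : ∀ (s : S) q, α (u s q) ∈ p.1 := fun s q => mem_dn.1 (hF.int s s.2 q)
  let w : io none → L[X] := fun a => ∑ s : S, C (cc (a, s)) * (τ s).map (α : K →+* L)
  have hwd : ∀ a, (w a).natDegree ≤ n := fun a => natDegree_sum_le_of_forall_le _ _ fun s _ =>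
    (natDegree_C_mul_le _ _).trans (natDegree_map_le.trans (hF.deg s))
  let wh : io none → I → L := fun a q => ∑ s : S, cc (a, s) * α (u s q)
  have hwh : ∀ a q, α (ζ.cfg.nrm (dn α p) q none) * hv n (w a) ((ζ.map α).x q) = wh a q :=
    fun a q => by
      rw [hv_sum, Finset.mul_sum]
      refine Finset.sum_congr rfl fun s _ => ?_
      rw [hv_C_mul, show (ζ.map α).x q = (ζ.x q).map (α : K →+* L) from rfl, Bub96.hv_map,
        map_mul]
      exact mul_left_comm _ _ _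
  have W0 : ∀ a q, p.v (wh a q) ≤ p.v (cc x₁) := fun a q =>
    Valuation.map_sum_le _ fun s _ => v_mul_le' (hm _) (hu s q)
  have hpt : ∀ t a, η.pt t none a = c₀ * (ζ.map α).pt t none a + hv n (w a) t := fun t a => by
    change hv n (η.f none a) t = _
    rw [hf, hv_add, hv_C_mul]
    rfl
  have hs : ∀ x : io none × S, wh x.1 x.2 = cc x := fun x => by
    refine (Finset.sum_eq_single x.2 (fun s _ hs => ?_) (by simp)).trans ?_
    · rw [show u s x.2 = 0 from (hF.piv s s.2 _ x.2.2).trans (if_neg fun h => hs (Subtype.ext h)),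
        map_zero, mul_zero]
    · rw [show u x.2 x.2 = 1 from (hF.piv _ x.2.2 _ x.2.2).trans (if_pos rfl), map_one, mul_one]
  have hg : ∀ q a, α (hat ζ (dn α p) q none a) ∈ p.1 := fun q a =>
    mem_dn.1 ((prim_hat ζ _ q none).1 a)
  refine ⟨?_, fun hlt => ?_⟩
  · have hd : ∀ a q, wh a q / cc x₁ ∈ p.1 := fun a q => RZ.le_one_iff.1 (by
      rw [map_div₀, div_le_one₀ (RZ.pos h1)]; exact W0 a q)
    obtain ⟨q, a, b, W2⟩ : ∃ q a b, p.v (cc x₁) ≤ p.v (wh a q * α (hat ζ (dn α p) q none b) -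
        wh b q * α (hat ζ (dn α p) q none a)) := by
      by_contra hc
      push Not at hc
      have hy : ∀ q a, rf α p ((ζ.cfg.red (plV (dn α p))).y q none a) =
          (plV p).r (α (hat ζ (dn α p) q none a)) := fun q a => rf_r α p _
      refine (hP (ζ.cfg.red (plV (dn α p))) (rf α p) none h.tl h2
        (fun a q => (plV p).r (wh a q / cc x₁)) (fun a => ?_) fun q a b => ?_).elim fun μ hμ => ?_
      rotate_right
      · have e0 := hμ x₀.1 x₀.2
        have e1 := hμ x₁.1 x₁.2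
        simp only [hs, hy] at e0 e1
        rw [h0, zero_div, Pl.r_zero, eq_comm, mul_eq_zero,
          or_iff_left ((Pl.r_ne_zero_iff (p := plV p)).2 (v_dn_eq_one.1 hγ))] at e0
        rw [div_self h1, Pl.r_one, e0, zero_mul] at e1
        exact one_ne_zero e1
      · have hc' : ∀ s, cc (a, s) / cc x₁ ∈ p.1 := fun s => RZ.le_one_iff.1 (by
          rw [map_div₀, div_le_one₀ (RZ.pos h1)]; exact hm _)
        have : (fun q => (plV p).r (wh a q / cc x₁)) = ∑ s : S, (plV p).r (cc (a, s) / cc x₁) •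
            fun q => rf α p ((plV (dn α p)).r (u s q)) := by
          funext q
          rw [Finset.sum_apply, Finset.sum_div,
            Tree87.r_sum (p := plV p) _ fun s _ => by
              rw [mul_div_right_comm]; exact mul_mem (hc' s) (hu s q)]
          refine Finset.sum_congr rfl fun s _ => ?_
          rw [mul_div_right_comm, Pl.r_mul (p := plV p) (hc' s) (hu s q), Pi.smul_apply, rf_r,
            smul_eq_mul]
        rw [this]
        exact sum_mem fun s _ => Submodule.smul_mem _ _ (mem_mapS _ (mem_redS (plV (dn α p))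
          ((mem_gau_V ζ _ none).2 ⟨τ s, hF.deg s, fun _ => rfl⟩) (hF.int s s.2)))
      · rw [hy, hy, ← Pl.r_mul (p := plV p) (hd a q) (hg q b),
          ← Pl.r_mul (p := plV p) (hd b q) (hg q a), ← sub_eq_zero,
          ← Pl.r_sub (p := plV p) (mul_mem (hd a q) (hg q b)) (mul_mem (hd b q) (hg q a)),
          Pl.r_eq_zero (p := plV p) (sub_mem (mul_mem (hd a q) (hg q b)) (mul_mem (hd b q) (hg q a))),
          div_mul_eq_mul_div, div_mul_eq_mul_div, ← sub_div]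
        change p.v _ < 1
        rw [map_div₀, div_lt_one₀ (RZ.pos h1)]
        exact hc q a b
    obtain ⟨l, a₁, hl₁⟩ := hch q
    have hfh : ∀ a, α (ζ.cfg.nrm (dn α p) q none) * η.pt (η.x (g q)) none a =
        c₀ * α (hat ζ (dn α p) q none a) + wh a q := fun a => by
      rw [hpt, x_eq h.prj he, mul_add, hwh, mul_left_comm]
      exact congrArg (c₀ * · + _) (congrFun (congrFun (mapP_hat ζ _ q) none) a).symm
    have := lower G h.prj he (q := q) (l := l) (a₁ := a₁) ((Pl.r_ne_zero_iff (p := plV (dn α p))).1 (by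
        rwa [r_pv (p := plV (dn α p)) (y := prP (hat ζ (dn α p) q)) (lnr_plV _)
          fun j => (prim_hat ζ _ q (some j)).1]))
      (fun b => (hb' q b).trans (le_max_right _ _)) (le_max_left _ _)
      (m₀ := max (p.v c₀) (p.v (cc x₁))) (fun a => by
        rw [hfh]
        exact v_add_le (v_mul_le' (le_max_left _ _) (hg q a)) ((W0 a q).trans (le_max_right _ _)))
      a b
    rw [hfh, hfh] at this
    refine W2.trans (le_of_eq_of_le ?_ this)
    congr 1
    ring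
  · have W1 : ∀ t a, p.v (hv n (w a) t) ≤
        p.v (cc x₁) * (ln ((ζ.map α).pt t) none).val p := fun t a => by
      have := bound h (κ := Pi.single none 1) (fun j => (by
        rcases j with _ | j <;> simp; omega)) (σ := w a) (by rw [dot_single]; exact hwd a) h1
        (fun q => by rw [dot_single, chr_single]; exact (hwh a q).symm ▸ W0 a q) t
      rwa [dot_single, lw_single] at this
    have key : ∀ μ : L, μ ≠ 0 → p.v μ < 1 → p.v (α lam) ≤ p.v μ → p.v (cc x₁) ≤ p.v (μ * c₀) →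
        nm (η.cfg.ea T') p (η.cfg.sv T') ≤ p.v μ := fun μ e1 e2 e3 e4 =>
      upper h hk he e1 e2 hc₀ (fun q b => (hb' q b).trans e3) fun t a => by
        rw [hpt, add_sub_cancel_left]
        exact (W1 t a).trans (mul_le_mul_left e4 _)
    rw [← map_div₀]
    rcases le_total (p.v (α lam)) (p.v (cc x₁ / c₀)) with e | e
    · rw [max_eq_right e]
      exact key _ (div_ne_zero h1 hc₀) (by rwa [map_div₀, div_lt_one₀ (RZ.pos hc₀)]) e
        (by rw [div_mul_cancel₀ _ hc₀])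
    · rw [max_eq_left e]
      refine key _ (RZ.ne_zero_iff.1 ((RZ.pos (div_ne_zero h1 hc₀)).trans_le e).ne')
        (v_dn_lt_one.1 hl) le_rfl ?_
      rwa [map_div₀, div_le_iff₀ (RZ.pos hc₀), ← map_mul] at e

theorem hv_eq_sum' {n : ℕ} {σ : K[X]} (hσ : σ.natDegree ≤ n) (t : Option K) :
    hv n σ t = ∑ l : Fin (n + 1), hv n (X ^ (l : ℕ)) t * σ.coeff l := by
  simpa using hv_eq_sum hσ (AlgHom.id ℂ K) t

/-- **REL** -/
theorem relStmt_of (hPr : PropStmt) (hB : BndStmt) : RelStmt := by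
  classical
  intro J _ _ io _ _ A A' _ _ T T' d G hnt
  obtain ⟨N₁, hN₁⟩ := hB G
  refine ⟨2 + ∑ b, ∑ j, T'.k b j, ?_⟩
  intro I I' K L _ _ _ _ _ _ n N α ξ W ζ η g hN h he hL hO
  have hk : ∀ b j, T'.k b j ≤ N := fun b j =>
    ((Finset.single_le_sum (f := T'.k b) (fun _ _ => Nat.zero_le _) (Finset.mem_univ j)).trans
      (Finset.single_le_sum (f := fun b => ∑ j, T'.k b j) (fun _ _ => Nat.zero_le _)
        (Finset.mem_univ b))).trans (le_of_add_le_right hN)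
  have h2 : 2 ≤ N := le_of_add_le_left hN
  have hch := (hN₁ n N _ hk h.tl h.on).2
  obtain ⟨S, τ, hF⟩ := exists_frame ζ W none (by
    have := h.tl.finrank_V (κ := Pi.single none 1) fun j => by
      rcases j with _ | j <;> simp; omega
    rwa [dot_single, show (ζ.cfg.red (plV W)).V (Pi.single none 1) =
      redS (plV W) ((ζ.cfg.gau (ζ.cfg.nrm W)).V (Pi.single none 1)) from rfl, finrank_redS,
      Cfg.gau_V, finrank_sclS fun q => chr_ne (Cfg.nrm_ne W _ q) _] at this)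
  have hS : S.card = n + 1 := hF.card
  obtain ⟨s₀, hs₀⟩ : S.Nonempty := Finset.card_pos.1 (by omega)
  obtain ⟨a₀, ha₀⟩ := (prim_hat ζ W s₀ none).2
  let x₀ : io none × S := (a₀, ⟨s₀, hs₀⟩)
  have hc2 : 2 ≤ Fintype.card (io none) := Fintype.one_lt_card
  have hmp : 1 ≤ mp io n := by
    have : 2 * 1 ≤ Fintype.card (io none) * (n + 1) := Nat.mul_le_mul hc2 (by omega)
    unfold Emb.mp
    omega
  have hcard : Fintype.card (io none × S) = mp io n + 1 := by
    rw [Fintype.card_prod, Fintype.card_coe, hS]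
    unfold Emb.mp at hmp ⊢
    omega
  obtain ⟨e, he0⟩ : ∃ e : Fin (mp io n + 1) ≃ io none × S, e 0 = x₀ :=
    ⟨(Equiv.swap 0 (Fintype.equivFinOfCardEq hcard x₀)).trans
      (Fintype.equivFinOfCardEq hcard).symm, by simp⟩
  let γ : io none × S → K := fun x => hat ζ W x.2 none x.1
  have hγ0 : γ x₀ ≠ 0 := RZ.ne_zero_iff.1 (ha₀ ▸ one_ne_zero)
  let P' : io none × S → io none × Fin (n + 1) → K := fun x y =>
    if y.1 = x.1 then ζ.cfg.nrm W x.2 none * hv n (X ^ (y.2 : ℕ)) (ζ.x x.2) else 0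
  let c' : io none × S → L := fun x =>
    α (ζ.cfg.nrm W x.2 none) * hv n (η.f none x.1) ((ζ.x x.2).map α)
  have hc' : ∀ x, c' x = ∑ y, α (P' x y) * coef η y := fun x => by
    rw [Fintype.sum_prod_type, Finset.sum_eq_single x.1 (fun a _ ha => by simp [P', ha]) (by simp)]
    simp only [c', P', if_true, hv_eq_sum (n := n) (η.cp.1 none x.1) α, Finset.mul_sum, map_mul, mul_assoc]
    rfl
  have hT : ∀ x x' : io none × S, ∑ y, P' x y * (if x'.1 = y.1 then (τ x'.2).coeff y.2 else 0) =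
      if x = x' then 1 else 0 := fun x x' => by
    rw [Fintype.sum_prod_type, Finset.sum_eq_single x.1 (fun a _ ha => by simp [P', ha]) (by simp)]
    by_cases h1 : x'.1 = x.1
    · simp only [P', if_true, h1, mul_assoc, ← Finset.mul_sum, ← hv_eq_sum' (n := n) (hF.deg x'.2)]
      refine (hF.piv _ x'.2.2 _ x.2.2).trans (if_congr ?_ rfl rfl)
      exact ⟨fun h => Prod.ext h1.symm (Subtype.ext h.symm), fun h => h ▸ rfl⟩
    · rw [if_neg fun h : x = x' => h1 (h ▸ rfl)]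
      simp [h1]
  let c₀ : L := c' x₀ / α (γ x₀)
  let cc : io none × S → L := fun x => c' x - α (γ x) * c₀
  have hcc0 : cc x₀ = 0 := by
    simp only [cc, c₀]
    rw [mul_div_cancel₀ _ ((map_ne_zero α).2 hγ0), sub_self]
  have hf : ∀ a, η.f none a = C c₀ * (ζ.f none a).map (α : K →+* L) +
      ∑ s : S, C (cc (a, s)) * (τ s).map (α : K →+* L) := fun a => by
    have e1 := hF.exp_map α (η.cp.1 none a)
    have e2 := hF.exp_map α (σ := (ζ.f none a).map (α : K →+* L))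
      (natDegree_map_le.trans (ζ.cp.1 none a))
    rw [← Finset.sum_coe_sort] at e1 e2
    rw [e2, Finset.mul_sum, ← Finset.sum_add_distrib]
    refine e1.trans (Finset.sum_congr rfl fun s _ => ?_)
    rw [← mul_assoc, ← add_mul, ← C_mul, ← C_add]
    congr 2
    have : α (γ (a, s)) = α (ζ.cfg.nrm W s none) *
        hv n ((ζ.f none a).map (α : K →+* L)) ((ζ.x s).map α) :=
      (map_mul α _ _).trans (congrArg _ (Bub96.hv_map (α : K →+* L) _ _ _).symm)
    change c' (a, s) = c₀ * (_ * hv n _ _) + (c' (a, s) - α (γ (a, s)) * c₀)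
    rw [this]
    ring
  let c : Fin (mp io n + 1) → L := Fin.cases c₀ fun i => cc (e i.succ)
  let P : Matrix (Fin (mp io n + 1)) (io none × Fin (n + 1)) K := fun i y =>
    Fin.cases (P' x₀ y / γ x₀) (fun i => P' (e i.succ) y - γ (e i.succ) * (P' x₀ y / γ x₀)) i
  have hP0 : c₀ = ∑ y, α (P' x₀ y / γ x₀) * coef η y := by
    simp only [c₀, hc', Finset.sum_div, map_div₀, div_mul_eq_mul_div]
  have hP : ∀ i, c i = ∑ y, α (P i y) * coef η y := fun i => by
    refine Fin.cases hP0 (fun i => ?_) i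
    change c' _ - α _ * c₀ = ∑ y, α (P' (e i.succ) y - γ (e i.succ) * (P' x₀ y / γ x₀)) * coef η y
    simp only [hP0, hc', Finset.mul_sum, map_sub, map_mul, sub_mul, Finset.sum_sub_distrib,
      mul_assoc]
  have hne : ∀ i, c i ≠ 0 := fun i h0 => by
    have h1 := congrFun (hL _ ((hP i).symm.trans h0))
    revert h1
    refine Fin.cases (fun h1 => ?_) (fun i h1 => ?_) i
    · have h3 := hT x₀ x₀
      rw [if_pos rfl, Finset.sum_eq_zero fun y _ => by
        rw [(div_eq_zero_iff.1 (h1 y)).resolve_right hγ0, zero_mul]] at h3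
      exact zero_ne_one h3
    · have h3 := hT (e i.succ) (e i.succ)
      have h4 := hT x₀ (e i.succ)
      rw [if_neg (he0 ▸ e.injective.ne (Fin.succ_ne_zero i).symm)] at h4
      rw [if_pos rfl, Finset.sum_congr rfl fun y _ => by
        rw [sub_eq_zero.1 (h1 y), mul_div_assoc', mul_comm (γ _), mul_div_assoc, mul_right_comm],
        ← Finset.sum_mul, h4, zero_mul] at h3
      exact zero_ne_one h3
  refine ⟨c, P, fun y i => Fin.cases ((ζ.f none y.1).coeff y.2)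
    (fun i => if (e i.succ).1 = y.1 then (τ (e i.succ).2).coeff y.2 else 0) i, hP, fun y => ?_,
    hne, fun p hp => ?_⟩
  · have e1 : ∑ i : Fin (mp io n), α (if (e i.succ).1 = y.1 then (τ (e i.succ).2).coeff y.2 else 0) *
        cc (e i.succ) = ∑ x, α (if x.1 = y.1 then (τ x.2).coeff y.2 else 0) * cc x := by
      rw [← e.sum_comp, Fin.sum_univ_succ, he0, hcc0, mul_zero, zero_add]
    rw [Fin.sum_univ_succ]
    change (η.f none y.1).coeff y.2 = α ((ζ.f none y.1).coeff y.2) * c₀ + _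
    simp only [Fin.cases_succ, c]
    rw [e1, Fintype.sum_prod_type, Finset.sum_eq_single y.1 (fun a _ ha => by simp [ha]) (by simp),
      hf, coeff_add, coeff_C_mul, coeff_map, finsetSum_coeff, mul_comm]
    simp only [coeff_C_mul, coeff_map, if_true, mul_comm (cc _)]
    rfl
  · subst hp
    obtain ⟨i₁, hi₁⟩ := exists_val_mxf (k := ℂ) (s := fun i => c (Fin.succ i))
      ⟨⟨0, hmp⟩, hne _⟩ p
    have hm : ∀ x, p.v (cc x) ≤ p.v (cc (e i₁.succ)) := fun x => by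
      obtain ⟨i, rfl⟩ := e.surjective x
      refine Fin.cases ?_ (fun i => ?_) i
      · rw [he0, hcc0, map_zero]
        exact zero_le
      · exact (mem_Sec_mxf (k := ℂ) (fun i => c (Fin.succ i)) i p).trans hi₁.ge
    have hm0 : (mxf ℂ c).val p = max (p.v c₀) (p.v (cc (e i₁.succ))) := by
      refine le_antisymm ?_ (max_le (mem_Sec_mxf c 0 p) (mem_Sec_mxf c i₁.succ p))
      obtain ⟨i, hi⟩ := exists_val_mxf (k := ℂ) ⟨0, hne 0⟩ p
      rw [← hi]
      exact Fin.cases (le_max_left _ _) (fun i => (hm _).trans (le_max_right _ _)) i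
    obtain ⟨lam, hl, hb⟩ := exists_lam h.on
    obtain ⟨lo, up⟩ := at_p hPr G h hk h2 he hch hF (hne 0) hf hcc0 ha₀ (hne i₁.succ) hm hl hb
    rw [Cfg.val_dv T' hO, val_sub, hm0, ← hi₁]
    have := final (RZ.pos (hne i₁.succ)) (le_max_right (p.v c₀) _)
      (Cfg.nm_sv_le T' (nz_cfg η) p) (v_dn_lt_one.1 hl) lo fun hlt => by
        have h3 := (lt_max_iff.1 hlt).resolve_right (lt_irrefl _)
        rw [max_eq_left h3.le]
        exact up h3
    exact ⟨this.1, fun h3 => this.2 (h3 lam hl)⟩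

end Crest.Agent.X262.Emb10
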